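import Mathlib

/-!
# P215, core algebra: definitions
-/

noncomputable section

namespace Vale.Agent.P215Z

open MvPolynomial

abbrev F3 : Type := FreeGroup (Fin 3)
abbrev I2 : Type := Fin 2 × Fin 2
/-- legs: colour and side, `true` is the strong side -/
abbrev Lg : Type := Fin 3 × Bool
abbrev M2 (R : Type) : Type := Matrix (Fin 2) (Fin 2) R

/-! ### weight filtration -/

section W
variable {M : Type} [AddCommGroup M] [Module ℚ M]

def W0 (t : Module.End ℚ M) : Submodule ℚ M :=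
  ⨆ j : ℕ, (LinearMap.ker (t ^ (2 * j + 1))).map (t ^ j)

def W1 (t : Module.End ℚ M) : Submodule ℚ M :=
  ⨆ j : ℕ, (LinearMap.ker (t ^ (2 * j))).map (t ^ j)

/-- realisable leading terms -/
def Xi (t : Module.End ℚ M) (z : I2 → Module.End ℚ M) (N : Submodule ℚ M) (d : M →ₗ[ℚ] ℚ) :
    Set (M2 ℚ) :=
  {ξ | ∃ χ ∈ W0 t, ∃ ω : I2 → M, ∀ b : I2,
    ω b ∈ W1 t ∧ z b χ + ω b ∈ N ∧ d (z b χ + ω b) = ξ b.1 b.2}

end W

/-- the total operator, seen on a multilinear functional -/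
def Cl {ι : Type} [DecidableEq ι] [Fintype ι] {M : ι → Type} [∀ i, AddCommGroup (M i)]
    [∀ i, Module ℚ (M i)] (t : ∀ i, Module.End ℚ (M i)) (ε : ι → ℚ)
    (E : MultilinearMap ℚ M ℚ) (x : ∀ i, M i) : ℚ :=
  ∑ i, ε i * E (Function.update x i (t i (x i)))

/-! ### letters -/

/-- The curves on the three types of walls. -/
structure Letters where
  C : Fin 3 → Type
  fin : ∀ i, Fintype (C i)
  dec : ∀ i, DecidableEq (C i)
  /-- the mark, seen from the strong side -/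
  mark : ∀ i, C i → F3
  /-- own for the strong side -/
  own : ∀ i, C i → Bool
  level : ∀ i, C i → ℕ

attribute [instance] Letters.fin Letters.dec

/-- marks: group elements, and one extra mark for each leg -/
abbrev Mk : Type := F3 ⊕ Lg

namespace Letters
variable (L : Letters)

/-- variables of a wall; `none` is the extra curve -/
abbrev WV (i : Fin 3) : Type := Option (L.C i) × I2
abbrev Var : Type := Σ l : Lg, L.WV l.1
abbrev P : Type := MvPolynomial L.Var ℚ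

/-- mark of a curve seen from the vertex `1` -/
def cmark (l : Lg) : Option (L.C l.1) → Mk
  | none => Sum.inr l
  | some c => Sum.inl (if l.2 then L.mark l.1 c else (FreeGroup.of l.1)⁻¹ * L.mark l.1 c)

def cown (l : Lg) : Option (L.C l.1) → Bool
  | none => l.2
  | some c => if l.2 then L.own l.1 c else !L.own l.1 c

def clev (i : Fin 3) : Option (L.C i) → ℕ
  | none => 0
  | some c => L.level i c

def vmark (v : L.Var) : Mk := L.cmark v.1 v.2.1
def vown (v : L.Var) : Bool := L.cown v.1 v.2.1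
def vlev (v : L.Var) : ℕ := L.clev v.1.1 v.2.1

def inc (l : Lg) : MvPolynomial (L.WV l.1) ℚ →ₐ[ℚ] L.P := rename fun w => ⟨l, w⟩

/-- products of two variables with the same mark -/
def NN : Ideal L.P := Ideal.span {f | ∃ v v', L.vmark v = L.vmark v' ∧ f = X v * X v'}

def II (m : Mk) : Ideal L.P := Ideal.span {f | ∃ v, L.vmark v = m ∧ f = X v}

def AA : Ideal L.P := Ideal.span {f | ∃ v, f = X v}

def Low (v : L.Var) : Ideal L.P :=
  Ideal.span {f | ∃ v', L.vmark v' = L.vmark v ∧ L.vlev v' < L.vlev v ∧ f = X v'}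

def sub (n : L.Var → L.P) : L.P →ₐ[ℚ] L.P := aeval fun v => if L.vown v then X v else n v

def sg (l : Lg) : ℚ := if l.2 then -1 else 1

variable (φ : ∀ i, MvPolynomial (L.WV i) ℚ)

def Psi : L.P := ∑ l : Lg, sg l • L.inc l (φ l.1)

/-- the operators `z` of a leg -/
def zl (l : Lg) (b : I2) : MvPolynomial (L.WV l.1) ℚ :=
  if l.2 then X (none, b) else pderiv (none, (b.2, b.1)) (φ l.1)

def zM (n : L.Var → L.P) (l : Lg) : M2 L.P := fun a b => L.sub n (L.inc l (L.zl φ l (a, b)))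

def ZZ (n : L.Var → L.P) (i : Fin 3) : Ideal L.P :=
  Ideal.span {f | ∃ s a b, f = L.zM φ n (i, s) a b}

def zeta (n : L.Var → L.P) (c : Lg → ℚ) (i : Fin 3) : M2 L.P :=
  c (i, true) • L.zM φ n (i, true) + c (i, false) • L.zM φ n (i, false)

def DD (n : L.Var → L.P) : Ideal L.P :=
  Ideal.span {f | ∃ v g, L.vown v = false ∧ L.vmark v = Sum.inl g ∧
    ((∃ v', L.vmark v' = Sum.inl g ∧ f = X v' * L.sub n (pderiv v (L.Psi φ))) ∨
      (g = 1 ∧ f = L.sub n (pderiv v (L.Psi φ))))}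

/-- the output of the geometry -/
def Geo : Prop :=
  ∃ (φ : ∀ i, MvPolynomial (L.WV i) ℚ) (n : L.Var → L.P) (c : Lg → ℚ),
    (∀ i, constantCoeff (φ i) = 0) ∧ (∀ l, c l ≠ 0) ∧
    (∀ v, L.vown v = false → n v ∈ L.Low v) ∧
    L.sub n (L.Psi φ) ∈ L.NN ∧
    ∀ a b, (⁅⁅L.zeta φ n c 0, L.zeta φ n c 1⁆, L.zeta φ n c 2⁆ : M2 L.P) a b ∈
      L.AA * L.ZZ φ n 0 * L.ZZ φ n 1 * L.ZZ φ n 2 ⊔ L.DD φ n ⊔ L.II (Sum.inl 1) ⊔ L.NN

end Letters

/-! ### the abstract net -/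

/-- Abstract data from which the contradiction is derived. -/
structure Net where
  R : Lg → Type
  [cr : ∀ l, CommRing (R l)]
  [ar : ∀ l, Algebra ℚ (R l)]
  M : Lg → Type
  [am : ∀ l, AddCommGroup (M l)]
  [mm : ∀ l, Module ℚ (M l)]
  P : Type
  [cp : CommRing P]
  [ap : Algebra ℚ P]
  inc : ∀ l, R l →ₐ[ℚ] P
  rho : ∀ l, R l →ₐ[ℚ] Module.End ℚ (M l)
  E : P →ₗ[ℚ] MultilinearMap ℚ M ℚ
  phi : ∀ l, R l
  z : ∀ l, I2 → R l
  eps : Lg → ℚ
  a : ∀ l, Ideal (R l)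
  N : ∀ l, Submodule ℚ (M l)
  d : ∀ l, M l →ₗ[ℚ] ℚ
  D : Set P
  c : Lg → ℚ
  eps_ne : ∀ l, eps l ≠ 0
  c_ne : ∀ l, c l ≠ 0
  span : Submodule.span ℚ {h | ∃ f : ∀ l, R l, h = ∏ l, inc l (f l)} = ⊤
  inter : ∀ l f h χ, E (inc l f * h) χ = E h (Function.update χ l (rho l f (χ l)))
  ker : ∀ χ, Cl (fun l => rho l (phi l)) eps (E 1) χ = 0
  supp : ∀ χ, (∀ l, χ l ∈ N l) → E 1 χ = ∏ l, d l (χ l)
  N_stab : ∀ l f, ∀ χ ∈ N l, rho l f χ ∈ N l
  d_a : ∀ l, ∀ f ∈ a l, ∀ χ ∈ N l, d l (rho l f χ) = 0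
  im : ∀ h ∈ D, ∀ k, ∃ G : MultilinearMap ℚ M ℚ,
    ∀ χ, E (h * k) χ = Cl (fun l => rho l (phi l)) eps G χ
  edge : ∀ (i : Fin 3) (x : M2 ℚ),
    (∀ ξ ∈ Xi (rho (i, false) (phi _)) (fun b => rho (i, false) (z _ b)) (N _) (d _),
      Matrix.trace (x * ξ) = 0) →
    x ∈ Xi (rho (i, true) (phi _)) (fun b => rho (i, true) (z _ b)) (N _) (d _)
  triv : ∀ l, ∃ χ ∈ N l, rho l (phi l) χ = 0 ∧ d l χ = 1 ∧
    ∀ b, rho l (z l b) χ ∈ W1 (rho l (phi l))

attribute [instance] Net.cr Net.ar Net.am Net.mm Net.cp Net.ap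

namespace Net
variable (n : Net)

def zM (l : Lg) : M2 n.P := fun a b => n.inc l (n.z l (a, b))
def zeta (i : Fin 3) : M2 n.P := n.c (i, true) • n.zM (i, true) + n.c (i, false) • n.zM (i, false)
def ZZ (i : Fin 3) : Ideal n.P := Ideal.span {f | ∃ s a b, f = n.zM (i, s) a b}
def AA : Ideal n.P := ⨆ l, (n.a l).map (n.inc l)

end Net

end Vale.Agent.P215Z
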