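import Vale.Agent.P215Z.Core.Defs

/-!
# P215, core algebra: positions and tests
-/

noncomputable section

namespace Vale.Agent.P215Z

open MvPolynomial Classical

/-- reduced words which start with the letter of the leg -/
def Br (l : Lg) : Set F3 := {g | g.toWord.head? = some (l.1, l.2)}

def upB (l : Lg) : Mk → ℤ
  | Sum.inl g => if g ∈ Br l then 1 else 0
  | Sum.inr l' => if l' = l ∧ l.2 = true then 1 else 0

def loB (l : Lg) : Mk → ℤ
  | Sum.inl g => if g ∈ Br l then 0 else -1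
  | Sum.inr _ => 0

namespace Letters
variable (L : Letters)

def lmax : ℕ := Finset.univ.sup fun v : L.Var => L.vlev v

def wt (i : Fin 3) : Option (L.C i) → ℕ
  | none => 0
  | some c => 8 ^ (L.lmax - L.level i c)

def Cc : ℕ := 3 * 8 ^ L.lmax

abbrev Pos (l : Lg) : Type := L.WV l.1 → ℤ

def sgn (l : Lg) (w : L.WV l.1) : ℤ := if L.cown l w.1 then 1 else -1

/-- the charge -/
def chg (l : Lg) (m : Mk) (p : L.Pos l) : ℤ :=
  ∑ w, if L.cmark l w.1 = m then L.sgn l w * p w else 0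

def wS (l : Lg) (p : L.Pos l) : ℤ := ∑ w, if L.cown l w.1 then (L.wt l.1 w.1 : ℤ) * p w else 0

def wR (l : Lg) (p : L.Pos l) : ℤ := ∑ w, if L.cown l w.1 then 0 else (L.wt l.1 w.1 : ℤ) * p w

def Lam (l : Lg) : Set (L.Pos l) :=
  {p | (∀ w, 0 ≤ p w) ∧ (∀ m, loB l m ≤ L.chg l m p ∧ L.chg l m p ≤ upB l m) ∧
    2 * L.wS l p ≤ L.wR l p + 2 * L.Cc ∧ 2 * L.wR l p ≤ L.wS l p + 2 * L.Cc}

abbrev Tst (l : Lg) : Type := L.Lam l → ℚ

/-- value of a test at an arbitrary position -/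
def val (l : Lg) (p : L.Pos l) : L.Tst l →ₗ[ℚ] ℚ :=
  if h : p ∈ L.Lam l then LinearMap.proj (⟨p, h⟩ : L.Lam l) else 0

def shiftOp (l : Lg) (m : L.WV l.1 →₀ ℕ) : Module.End ℚ (L.Tst l) :=
  LinearMap.pi fun p : L.Lam l => L.val l fun w => p.1 w + L.sgn l w * m w

def rhoL (l : Lg) : MvPolynomial (L.WV l.1) ℚ →ₗ[ℚ] Module.End ℚ (L.Tst l) :=
  (basisMonomials (L.WV l.1) ℚ).constr ℚ (L.shiftOp l)

def NL (l : Lg) : Submodule ℚ (L.Tst l) where
  carrier := {χ | ∀ p : L.Lam l, (L.wR l p.1 < L.wS l p.1 ∨ ∃ b, p.1 (none, b) ≠ 0) → χ p = 0}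
  add_mem' := fun ha hb p hp => by simp [ha p hp, hb p hp]
  zero_mem' := fun _ _ => rfl
  smul_mem' := fun c _ ha p hp => by simp [ha p hp]

def dL (l : Lg) : L.Tst l →ₗ[ℚ] ℚ := L.val l 0

def aL (l : Lg) : Ideal (MvPolynomial (L.WV l.1) ℚ) := Ideal.span {f | ∃ w, f = X w}

def ownPart (p : ∀ l, L.Pos l) : L.Var →₀ ℕ :=
  Finsupp.equivFunOnFinite.symm fun v => if L.vown v then (p v.1 v.2).toNat else 0

def envPart (p : ∀ l, L.Pos l) : L.Var →₀ ℕ :=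
  Finsupp.equivFunOnFinite.symm fun v => if L.vown v then 0 else (p v.1 v.2).toNat

def ET (T : L.P →ₗ[ℚ] L.P) (p : ∀ l, L.Pos l) : ℚ :=
  coeff (L.ownPart p) (T (monomial (L.envPart p) 1))

def Env : Ideal L.P := Ideal.span {f | ∃ v, L.vown v = false ∧ f = X v}

end Letters

end Vale.Agent.P215Z
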