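import Vale.Agent.P215Z.Core.Defs

/-! K2: the edge lemma -/

noncomputable section
namespace Vale.Agent.P215Z

namespace Edge

theorem lift {V U M : Type} [AddCommGroup V] [Module ℚ V] [AddCommGroup U] [Module ℚ U]
    [AddCommGroup M] [Module ℚ M] (s : Module.End ℚ V) (S : Module.End ℚ U) (β : U →ₗ[ℚ] V)
    (hc : ∀ e, s (β e) = β (S e)) (σ : Module.End ℚ M) (π : M →ₗ[ℚ] V) (ρ : M →ₗ[ℚ] U)
    (hsurj : ∀ g e, ∃ χ, π χ = g ∧ ρ χ = e) (hinj : ∀ χ, π χ = 0 → ρ χ = 0 → χ = 0)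
    (h1 : ∀ χ, π (σ χ) = s (π χ) + β (ρ χ)) (h2 : ∀ χ, ρ (σ χ) = S (ρ χ)) (m : ℕ) :
    ∀ e, (S ^ m) e = 0 → (∀ j, ∃ y, (S ^ (2 * j)) y = (S ^ j) e) →
      (∀ j, ∃ y, (s ^ (2 * j + 1)) y = (s ^ j) (β e)) → ∃ χ ∈ W0 σ, ρ χ = e := by
  have c1 : ∀ k e, (s ^ k) (β e) = β ((S ^ k) e) := by
    intro k
    induction k with
    | zero => intro e; rfl
    | succ k ih => intro e; rw [pow_succ, pow_succ, Module.End.mul_apply, hc, ih]; rfl
  have c2 : ∀ k χ, ρ ((σ ^ k) χ) = (S ^ k) (ρ χ) := by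
    intro k
    induction k with
    | zero => intro χ; rfl
    | succ k ih => intro χ; rw [pow_succ, pow_succ, Module.End.mul_apply, ih, h2]; rfl
  have c3 : ∀ (k : ℕ) χ, π ((σ ^ (k + 1)) χ) =
      (s ^ (k + 1)) (π χ) + ((k : ℚ) + 1) • (s ^ k) (β (ρ χ)) := by
    intro k
    induction k with
    | zero => intro χ; simp [h1]
    | succ k ih =>
      intro χ
      rw [pow_succ' σ, Module.End.mul_apply, h1, ih, c2, ← c1, map_add, map_smul,
        ← Module.End.mul_apply, ← Module.End.mul_apply, ← pow_succ', ← pow_succ']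
      push_cast
      module
  have pw : ∀ {W : Type} [AddCommGroup W] [Module ℚ W] (u : Module.End ℚ W) (a b : ℕ) (x : W),
      (u ^ a) ((u ^ b) x) = (u ^ (a + b)) x := by
    intro W _ _ u a b x
    rw [pow_add, Module.End.mul_apply]
  induction m with
  | zero =>
    intro e he _ _
    exact ⟨0, zero_mem _, by rw [map_zero]; exact he.symm⟩
  | succ m ih =>
    intro e he ha hb
    obtain ⟨y, hy⟩ := ha m
    obtain ⟨g, hg⟩ := hb m
    have hy0 : (S ^ (2 * m + 1)) y = 0 := by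
      rw [pow_succ', Module.End.mul_apply, hy, ← Module.End.mul_apply, ← pow_succ', he]
    obtain ⟨χ0, k1, k2⟩ := hsurj (-((((2 * m : ℕ) : ℚ) + 1) • g)) y
    have hχ0 : (σ ^ (2 * m + 1)) χ0 = 0 := by
      refine hinj _ ?_ (by rw [c2, k2, hy0])
      rw [c3, k1, k2, map_neg, map_smul, hg, c1, c1, hy, neg_add_cancel]
    have hm0 : (S ^ m) (e - (S ^ m) y) = 0 := by
      rw [map_sub, pw, ← two_mul, hy, sub_self]
    have hz : ∀ j, m ≤ j → (S ^ j) (e - (S ^ m) y) = 0 := by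
      intro j hj
      obtain ⟨i, rfl⟩ := Nat.exists_eq_add_of_le' hj
      rw [← pw, hm0, map_zero]
    obtain ⟨χ1, l1, l2⟩ := ih (e - (S ^ m) y) hm0 (fun j => by
        rcases le_or_gt m j with hj | hj
        · exact ⟨0, by rw [hz j hj, map_zero]⟩
        · obtain ⟨x, hx⟩ := ha j
          obtain ⟨i, rfl⟩ := Nat.exists_eq_add_of_le hj.le
          refine ⟨x - (S ^ i) y, ?_⟩
          rw [map_sub, map_sub, hx, pw, pw]
          congr 3
          ring) (fun j => by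
        rcases le_or_gt m j with hj | hj
        · exact ⟨0, by rw [c1, hz j hj, map_zero, map_zero]⟩
        · obtain ⟨x, hx⟩ := hb j
          obtain ⟨i, rfl⟩ := Nat.exists_eq_add_of_lt hj
          refine ⟨x - (s ^ i) (β y), ?_⟩
          rw [map_sub, map_sub, map_sub, hx, ← c1, pw, pw]
          congr 3
          ring)
    refine ⟨χ1 + (σ ^ m) χ0, add_mem l1 ?_, by rw [map_add, l2, c2, k2, sub_add_cancel]⟩
    exact Submodule.mem_iSup_of_mem m ⟨χ0, hχ0, rfl⟩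

variable {Λ : Type} [Fintype Λ] [DecidableEq Λ]

theorem dual_rep (φ : (Λ → ℚ) →ₗ[ℚ] ℚ) (x : Λ → ℚ) :
    φ x = (fun p => φ (Pi.single p 1)) ⬝ᵥ x := by
  rw [LinearMap.pi_apply_eq_sum_univ, dotProduct]
  refine Finset.sum_congr rfl fun p _ => ?_
  rw [smul_eq_mul, mul_comm]
  congr 2
  funext j
  rw [Pi.single_apply]
  exact if_congr eq_comm rfl rfl

theorem mem_range (A A' : Module.End ℚ (Λ → ℚ)) (h : ∀ x y, A x ⬝ᵥ y = x ⬝ᵥ A' y) (x : Λ → ℚ)
    (hx : ∀ y, A y = 0 → y ⬝ᵥ x = 0) : ∃ y, A' y = x := by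
  by_contra hn
  obtain ⟨φ, h1, h2⟩ := (LinearMap.range A').exists_le_ker_of_notMem (v := x) hn
  refine h1 ?_
  rw [dual_rep]
  refine hx _ (dotProduct_eq_zero _ fun z => ?_)
  rw [h, ← dual_rep]
  exact h2 ⟨z, rfl⟩

omit [DecidableEq Λ] in
theorem adj_pow {t t' : Module.End ℚ (Λ → ℚ)} (ht : ∀ x y, t x ⬝ᵥ y = x ⬝ᵥ t' y) (k : ℕ) :
    ∀ x y, (t ^ k) x ⬝ᵥ y = x ⬝ᵥ (t' ^ k) y := by
  induction k with
  | zero => intro x y; rfl
  | succ k ih =>
    intro x y
    rw [pow_succ, pow_succ', Module.End.mul_apply, Module.End.mul_apply, ih, ht]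

omit [DecidableEq Λ] in
theorem ext_dot {u v : Λ → ℚ} (h : ∀ x, x ⬝ᵥ u = x ⬝ᵥ v) : u = v :=
  dotProduct_eq _ _ fun x => by rw [dotProduct_comm, h, dotProduct_comm]

end Edge

open Edge

theorem edge_abs {Λ Λ' I : Type} [Fintype Λ] [DecidableEq Λ] [Fintype I] [DecidableEq I]
    (t t' : Module.End ℚ (Λ → ℚ)) (β β' : I → Module.End ℚ (Λ → ℚ))
    (ht : ∀ x y, t x ⬝ᵥ y = x ⬝ᵥ t' y) (hβ : ∀ b x y, β b x ⬝ᵥ y = x ⬝ᵥ β' b y)
    (hnil : IsNilpotent t) (hc : ∀ b, Commute t (β b))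
    (B : Set Λ) (δ : Λ) (hδ : δ ∉ B) (a : I → ℚ)
    (ha : ∀ χ ∈ W0 t, ∀ ω : I → Λ → ℚ, (∀ b, ω b ∈ W1 t) →
      (∀ b, ∀ p ∈ B, (β b χ + ω b) p = 0) → ∑ b, a b * (β b χ + ω b) δ = 0)
    (q : Option I × Λ ≃ Λ') (s : Module.End ℚ (Λ' → ℚ))
    (hs0 : ∀ χ p, s χ (q (none, p)) =
      (t' (fun p => χ (q (none, p))) + ∑ b, β' b (fun p => χ (q (some b, p)))) p)
    (hs1 : ∀ χ b p, s χ (q (some b, p)) = t' (fun p => χ (q (some b, p))) p) :
    ∃ χ ∈ W0 s, (∀ b, χ (q (some b, δ)) = a b) ∧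
      ∀ b p, p ∉ B → p ≠ δ → χ (q (some b, p)) = 0 := by
  let T : Submodule ℚ (I → Λ → ℚ) :=
    (W0 t).map (LinearMap.pi β) ⊔ Submodule.pi Set.univ fun _ => W1 t
  let N : Submodule ℚ (I → Λ → ℚ) :=
    { carrier := {x | ∀ b, ∀ p ∈ B, x b p = 0}
      zero_mem' := fun _ _ _ => rfl
      add_mem' := fun {x y} hx hy b p hp => by
        rw [Pi.add_apply, Pi.add_apply, hx b p hp, hy b p hp, add_zero]
      smul_mem' := fun c x hx b p hp => by
        rw [Pi.smul_apply, Pi.smul_apply, hx b p hp, smul_zero] }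
  let ℓ : Module.Dual ℚ (I → Λ → ℚ) :=
    { toFun := fun x => ∑ b, a b * x b δ
      map_add' := fun x y => by simp [mul_add, Finset.sum_add_distrib]
      map_smul' := fun c x => by simp [Finset.mul_sum, mul_left_comm] }
  have hℓ : ℓ ∈ (T ⊓ N).dualAnnihilator := by
    rw [Submodule.mem_dualAnnihilator]
    rintro x ⟨hT, hN⟩
    obtain ⟨_, ⟨χ, hχ, rfl⟩, ω, hω, rfl⟩ := Submodule.mem_sup.1 hT
    exact ha χ hχ ω (fun b => hω b trivial) hN
  rw [Subspace.dualAnnihilator_inf_eq] at hℓ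
  obtain ⟨ℓ1, h1, ℓ2, h2, h12⟩ := Submodule.mem_sup.1 hℓ
  rw [Submodule.mem_dualAnnihilator] at h1 h2
  let e : I → Λ → ℚ := fun b p => ℓ1 (Pi.single b (Pi.single p 1))
  have he : ∀ b x, ℓ1 (Pi.single b x) = x ⬝ᵥ e b := fun b x =>
    (dual_rep (ℓ1 ∘ₗ LinearMap.single ℚ (fun _ : I => Λ → ℚ) b) x).trans (dotProduct_comm _ _)
  have hval : ∀ b p, p ∉ B → e b p = a b * (Pi.single p 1 : Λ → ℚ) δ := by
    intro b p hp
    have k1 : ℓ2 (Pi.single b (Pi.single p 1)) = 0 := by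
      refine h2 _ fun c r hr => ?_
      by_cases hcb : c = b
      · subst hcb
        rw [Pi.single_eq_same, Pi.single_eq_of_ne]
        rintro rfl
        exact hp hr
      · rw [Pi.single_eq_of_ne hcb]
        rfl
    have k2 := congrArg (fun f : Module.Dual ℚ (I → Λ → ℚ) => f (Pi.single b (Pi.single p 1))) h12
    simp only [LinearMap.add_apply, k1, add_zero] at k2
    refine k2.trans ?_
    change ∑ c, a c * (Pi.single b (Pi.single p 1) : I → Λ → ℚ) c δ = _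
    rw [Finset.sum_eq_single b (fun c _ hcb => by rw [Pi.single_eq_of_ne hcb]; simp) (by simp),
      Pi.single_eq_same]
  let S : Module.End ℚ (I → Λ → ℚ) := t'.compLeft I
  have hS : ∀ (k : ℕ) x b, (S ^ k) x b = (t' ^ k) (x b) := by
    intro k
    induction k with
    | zero => intro x b; rfl
    | succ k ih =>
      intro x b
      rw [pow_succ, pow_succ, Module.End.mul_apply, Module.End.mul_apply, ih]
      rfl
  let γ : (I → Λ → ℚ) →ₗ[ℚ] (Λ → ℚ) := ∑ b, β' b ∘ₗ LinearMap.proj b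
  have hγ : ∀ x, γ x = ∑ b, β' b (x b) := fun x => by simp [γ, LinearMap.sum_apply]
  let π : (Λ' → ℚ) →ₗ[ℚ] (Λ → ℚ) := LinearMap.funLeft ℚ ℚ fun p => q (none, p)
  let ρ : (Λ' → ℚ) →ₗ[ℚ] (I → Λ → ℚ) :=
    LinearMap.pi fun b => LinearMap.funLeft ℚ ℚ fun p => q (some b, p)
  obtain ⟨m, hm⟩ := hnil
  obtain ⟨χ, hχ, hρ⟩ := lift t' S γ (fun x => by
      rw [hγ, hγ, map_sum]
      refine Finset.sum_congr rfl fun b _ => ext_dot fun y => ?_
      change _ = y ⬝ᵥ β' b (t' (x b))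
      rw [← ht, ← hβ, ← hβ, ← ht, ← Module.End.mul_apply, ← (hc b).eq, Module.End.mul_apply])
    s π ρ (fun g x => ⟨fun r => (q.symm r).1.elim g x (q.symm r).2,
      funext fun p => by simp [π, LinearMap.funLeft_apply],
      funext fun b => funext fun p => by simp [ρ, LinearMap.funLeft_apply]⟩)
    (fun χ k1 k2 => funext fun r => by
      obtain ⟨⟨o, p⟩, rfl⟩ := q.surjective r
      cases o with
      | none => exact congrFun k1 p
      | some b => exact congrFun (congrFun k2 b) p)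
    (fun χ => funext fun p => by rw [hγ]; exact hs0 χ p)
    (fun χ => funext fun b => funext fun p => hs1 χ b p) m e
    (funext fun b => by
      rw [hS]
      refine ext_dot fun y => ?_
      rw [← adj_pow ht, hm]
      simp)
    (fun j => by
      have : ∀ b, ∃ y, (t' ^ (2 * j)) y = (t' ^ j) (e b) := fun b => by
        refine mem_range _ _ (adj_pow ht _) _ fun y hy => ?_
        rw [← adj_pow ht, ← he]
        refine h1 _ (Submodule.mem_sup_right fun c _ => ?_)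
        by_cases hcb : c = b
        · subst hcb
          rw [Pi.single_eq_same]
          exact Submodule.mem_iSup_of_mem j ⟨y, hy, rfl⟩
        · rw [Pi.single_eq_of_ne hcb]
          exact zero_mem _
      choose y hy using this
      exact ⟨y, funext fun b => by rw [hS, hS, hy]⟩)
    (fun j => by
      refine mem_range _ _ (adj_pow ht _) _ fun y hy => ?_
      have k1 := h1 (LinearMap.pi β ((t ^ j) y)) (Submodule.mem_sup_left
        ⟨_, Submodule.mem_iSup_of_mem j ⟨y, hy, rfl⟩, rfl⟩)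
      rw [← Finset.univ_sum_single (LinearMap.pi β ((t ^ j) y)), map_sum] at k1
      rw [← adj_pow ht, hγ, dotProduct_sum, ← k1]
      refine Finset.sum_congr rfl fun b _ => ?_
      rw [he, ← hβ]
      rfl)
  refine ⟨χ, hχ, fun b => ?_, fun b p hp hpδ => ?_⟩
  · refine (congrFun (congrFun hρ b) δ).trans ?_
    rw [hval b δ hδ, Pi.single_eq_same, mul_one]
  · refine (congrFun (congrFun hρ b) p).trans ?_
    rw [hval b p hp, Pi.single_eq_of_ne hpδ.symm, mul_zero]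

end Vale.Agent.P215Z
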