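import Vale.Agent.P215Z.Core.EpB

/-! K4b: support, intertwining, kernel and image statements -/

noncomputable section
namespace Vale.Agent.P215Z
open MvPolynomial Classical

namespace Epx
variable {L : Letters}

/-- exponents which carry too much charge -/
def Big (L : Letters) : Ideal L.P :=
  Up (fun a => (∃ v, L.vown v = false ∧ a v ≠ 0) ∨
      ∃ m, 2 - (if m = Sum.inl 1 then 1 else 0) ≤ lf (cQ m) a)
    fun a b h => h.imp (fun ⟨v, h1, h2⟩ => ⟨v, h1, by rw [Finsupp.add_apply]; omega⟩)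
      fun ⟨m, hm⟩ => ⟨m, by rw [lf_add]; linarith [lf_nonneg (cQ_nonneg m) b]⟩

/-- exponents with two variables of the same mark -/
def Two (L : Letters) : Ideal L.P :=
  Up (fun a => ∃ m, 2 ≤ lf (cQ m) a)
    fun a b ⟨m, hm⟩ => ⟨m, by rw [lf_add]; linarith [lf_nonneg (cQ_nonneg m) b]⟩

theorem NN_le : L.NN ≤ Two L := by
  refine Ideal.span_le.2 ?_
  rintro _ ⟨v, v', h, rfl⟩ a ha
  obtain ⟨x, hx, y, hy, rfl⟩ := exists_of_mul ha
  obtain rfl := X_supp hx
  obtain rfl := X_supp hy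
  exact ⟨L.vmark v, by rw [lf_add, lf_single, lf_single, cQ, cQ, if_pos rfl, if_pos h.symm]; rfl⟩

theorem le_Big : L.NN ⊔ L.II (Sum.inl 1) ⊔ L.Env ≤ Big L := by
  refine sup_le (sup_le (fun f hf a ha => ?_) (Ideal.span_le.2 ?_)) (Ideal.span_le.2 ?_)
  · obtain ⟨m, hm⟩ := NN_le hf a ha
    exact Or.inr ⟨m, by split_ifs <;> linarith⟩
  · rintro _ ⟨v, h, rfl⟩ a ha
    obtain rfl := X_supp ha
    exact Or.inr ⟨_, by rw [if_pos rfl, lf_single, cQ, if_pos h]; rfl⟩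
  · rintro _ ⟨v, h, rfl⟩ a ha
    obtain rfl := X_supp ha
    exact Or.inl ⟨v, h, by simp⟩

end Epx

open Epx

namespace Letters
variable (L : Letters) (n : L.Var → L.P) (hn : ∀ v, L.vown v = false → n v ∈ L.Low v)
include hn

theorem ET_supp (h : L.P) (p : ∀ l, L.Pos l) (hp : ∀ l w, 0 ≤ p l w)
    (h0 : L.ET (LinearMap.mulLeft ℚ h ∘ₗ (L.sub n).toLinearMap) p ≠ 0) :
    (∀ m, 0 ≤ ∑ l, L.chg l m (p l)) ∧ 8 * ∑ l, L.wR l (p l) ≤ ∑ l, L.wS l (p l) := by
  have h1 := mul_sub_supp hn h (envPart_own p) _ (mem_support_iff.2 h0)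
  exact ⟨fun m => by rw [sum_chg hp]; exact sub_nonneg.2 (h1.1 m),
    by rw [sum_wS hp, sum_wR hp]; exact h1.2⟩

omit hn in
theorem ET_zero : L.ET (LinearMap.mulLeft ℚ 1 ∘ₗ (L.sub n).toLinearMap) 0 = 1 := by
  have h1 : L.ownPart 0 = 0 := Finsupp.ext fun v => by simp [ownPart_apply]
  have h2 : L.envPart 0 = 0 := Finsupp.ext fun v => by simp [envPart_apply]
  rw [ET, h1, h2]
  simp

theorem Ep_inter (l : Lg) (f : MvPolynomial (L.WV l.1) ℚ) (h : L.P) (χ : ∀ l, L.Tst l) :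
    L.Ep n (L.sub n (L.inc l f) * h) χ = L.Ep n h (Function.update χ l (L.rho l f (χ l))) := by
  rw [Ep, Ep, EE_inter (adm_sub hn h)]
  congr 2
  exact LinearMap.ext fun y => by simp [mul_left_comm]

theorem Ep_kill (h : L.P) (hh : h ∈ L.NN ⊔ L.II (Sum.inl 1) ⊔ L.Env) : L.Ep n h = 0 := by
  refine EE_eq_zero fun b hb a ha => ?_
  obtain ⟨x, hx, y, hy, rfl⟩ := exists_of_mul ha
  refine (le_Big hh x hx).imp (fun ⟨v, h1, h2⟩ => ⟨v, h1, by rw [Finsupp.add_apply]; omega⟩)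
    fun ⟨m, hm⟩ => ⟨m, ?_⟩
  rw [lf_add]
  linarith [(sub_supp hn hb y hy).1 m]

theorem Ep_supp (χ : ∀ l, L.Tst l) (hχ : ∀ l, χ l ∈ L.NL l) :
    L.Ep n 1 χ = ∏ l, L.dL l (χ l) := by
  rw [Ep, EE_apply, Finset.sum_eq_single (fun l => ⟨0, L.zero_mem_lam l⟩) (fun p _ hne => ?_)
    fun h => (h (Finset.mem_univ _)).elim]
  · exact (congrArg (· * _) (L.ET_zero n)).trans ((one_mul _).trans
      (Finset.prod_congr rfl fun l _ => (val_mem (L.zero_mem_lam l) _).symm))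
  by_contra h0
  have h1 := (L.ET_supp n hn 1 _ (fun l => (p l).2.1) (left_ne_zero_of_mul h0)).2
  have h2 : ∀ l, L.wS l (p l).1 ≤ L.wR l (p l).1 ∧ ∀ b, (p l).1 (none, b) = 0 := fun l => by
    have := mt (hχ l (p l))
      (Finset.prod_ne_zero_iff.1 (right_ne_zero_of_mul h0) l (Finset.mem_univ l))
    simpa only [not_or, not_lt, not_exists, not_not] using this
  have h3 : ∑ l, L.wS l (p l).1 ≤ ∑ l, L.wR l (p l).1 := Finset.sum_le_sum fun l _ => (h2 l).1
  have h4 : 0 ≤ ∑ l, L.wR l (p l).1 := Finset.sum_nonneg fun l _ => wR_nonneg (p l).2.1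
  have h5 := (Finset.sum_eq_zero_iff_of_nonneg fun l _ => wR_nonneg (p l).2.1).1
    (show ∑ l, L.wR l (p l).1 = 0 by linarith)
  refine hne (funext fun l => Subtype.ext (funext fun ⟨c, b⟩ => ?_))
  have hR := h5 l (Finset.mem_univ l)
  have hS : L.wS l (p l).1 = 0 := le_antisymm ((h2 l).1.trans_eq hR) (wS_nonneg (p l).2.1)
  rcases c with _ | c
  · exact (h2 l).2 b
  have hw : (L.wt l.1 (some c) : ℤ) ≠ 0 := by simp [wt]
  have hR' := (Finset.sum_eq_zero_iff_of_nonneg fun w _ => by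
    have := (p l).2.1 w
    split_ifs <;> positivity).1 hR (some c, b) (Finset.mem_univ _)
  have hS' := (Finset.sum_eq_zero_iff_of_nonneg fun w _ => by
    have := (p l).2.1 w
    split_ifs <;> positivity).1 hS (some c, b) (Finset.mem_univ _)
  split_ifs at hR' hS'
  exacts [(mul_eq_zero.1 hS').resolve_left hw, (mul_eq_zero.1 hR').resolve_left hw]

variable (φ : ∀ i, MvPolynomial (L.WV i) ℚ) (hΨ : L.sub n (L.Psi φ) ∈ L.NN)
include hΨ

theorem Ep_ker (h : L.P) (χ : ∀ l, L.Tst l) :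
    Cl (fun l => L.rho l (φ l.1)) sg (L.Ep n h) χ = 0 := by
  have e : (LinearMap.mulLeft ℚ h ∘ₗ (L.sub n).toLinearMap) ∘ₗ LinearMap.mulLeft ℚ (L.Psi φ) =
      LinearMap.mulLeft ℚ (h * L.sub n (L.Psi φ)) ∘ₗ (L.sub n).toLinearMap :=
    LinearMap.ext fun y => by simp
  rw [Ep, Cl_EE (adm_sub hn h), e]
  exact congrArg (· χ) (L.Ep_kill n hn _
    (Ideal.mem_sup_left (Ideal.mem_sup_left (Ideal.mul_mem_left _ _ hΨ))))

theorem Ep_im (h : L.P) (hh : h ∈ L.DD φ n) : ∃ G : MultilinearMap ℚ L.Tst ℚ,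
    ∀ χ, L.Ep n h χ = Cl (fun l => L.rho l (φ l.1)) sg G χ := by
  have key : ∀ (k x : L.P) (v : L.Var), L.vown v = false →
      (∀ a ∈ x.support, ∀ m, cQ m v - (if m = Sum.inl 1 then 1 else 0) ≤ lf (cQ m) a) →
      ∃ G : MultilinearMap ℚ L.Tst ℚ, ∀ χ, L.Ep n (k * (x * L.sub n (pderiv v (L.Psi φ)))) χ =
        Cl (fun l => L.rho l (φ l.1)) sg G χ := fun k x v hv hx => by
    have hT := adm_der hn k x hv hx
    refine ⟨_, fun χ => ((Cl_EE hT φ χ).trans ?_).symm⟩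
    set T := LinearMap.mulLeft ℚ (k * x) ∘ₗ (L.sub n).toLinearMap ∘ₗ (pderiv v).toLinearMap with hT'
    have e : T ∘ₗ LinearMap.mulLeft ℚ (L.Psi φ) =
        LinearMap.mulLeft ℚ (k * (x * L.sub n (pderiv v (L.Psi φ)))) ∘ₗ (L.sub n).toLinearMap +
          LinearMap.mulLeft ℚ (L.sub n (L.Psi φ)) ∘ₗ T := LinearMap.ext fun y => by
      change k * x * L.sub n (pderiv v (L.Psi φ * y)) =
        k * (x * L.sub n (pderiv v (L.Psi φ))) * L.sub n y +
          L.sub n (L.Psi φ) * (k * x * L.sub n (pderiv v y))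
      rw [pderiv_mul, map_add, map_mul, map_mul]
      ring
    have h0 : L.EE (LinearMap.mulLeft ℚ (L.sub n (L.Psi φ)) ∘ₗ T) = 0 :=
      EE_eq_zero fun b hb a ha => by
        obtain ⟨y, hy, z, hz, rfl⟩ := exists_of_mul ha
        obtain ⟨m, hm⟩ := NN_le hΨ y hy
        refine Or.inr ⟨m, ?_⟩
        rw [lf_add]
        linarith [(hT.supp b hb z hz).1 m]
    rw [e]
    refine ((EEl χ).map_add _ _).trans ?_
    exact (congrArg (_ + · χ) h0).trans (add_zero _)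
  suffices H : ∀ k, ∃ G : MultilinearMap ℚ L.Tst ℚ,
      ∀ χ, L.Ep n (k * h) χ = Cl (fun l => L.rho l (φ l.1)) sg G χ by
    simpa only [one_mul] using H 1
  induction hh using Submodule.span_induction with
  | mem f hf =>
    intro k
    obtain ⟨v, g, hv, hm, ⟨v', hm', rfl⟩ | ⟨rfl, rfl⟩⟩ := hf
    · refine key k _ v hv fun a ha m => ?_
      obtain rfl := X_supp ha
      rw [lf_single, cQ, cQ, hm, hm']
      exact sub_le_self _ (by split_ifs <;> norm_num)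
    · rw [← one_mul (L.sub n _)]
      refine key k _ v hv fun a _ m => le_trans ?_ (lf_nonneg (cQ_nonneg m) a)
      rw [cQ, hm]
      simp only [eq_comm (a := m), sub_self, le_refl]
  | zero =>
    refine fun k => ⟨0, fun χ => ?_⟩
    rw [mul_zero, L.Ep_kill n hn 0 (zero_mem _)]
    simp [Cl]
  | add f g _ _ hf hg =>
    intro k
    obtain ⟨G, hG⟩ := hf k
    obtain ⟨G', hG'⟩ := hg k
    refine ⟨G + G', fun χ => ?_⟩
    rw [mul_add, Ep_add, add_apply, hG, hG']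
    simp [Cl, mul_add, Finset.sum_add_distrib]
  | smul c f _ hf =>
    intro k
    rw [smul_eq_mul, ← mul_assoc]
    exact hf _

end Letters
end Vale.Agent.P215Z
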