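import Vale.Agent.P215Z.Core.Ep
import Vale.Agent.P215Z.Core.Triv.Bar

/-! K5: the trivial tests -/

noncomputable section
namespace Vale.Agent.P215Z
open MvPolynomial Classical

namespace Trv

variable (L : Letters) (n : L.Var → L.P) (φ : ∀ i, MvPolynomial (L.WV i) ℚ)

/-- a bound for the norms of the marks -/
def bnd : ℕ := Finset.univ.sup fun v : L.Var => Sum.elim FreeGroup.norm (fun _ => 0) (L.vmark v)

/-- the invariants of the recursion -/
structure Inv (k : ℕ) (χ : ∀ l, L.Tst l) : Prop where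
  nl : ∀ l, χ l ∈ L.NL l
  d1 : ∀ l, L.dL l (χ l) = 1
  neg : ∀ l p, χ l p ≠ 0 → ∀ g, L.chg l (Sum.inl g) p.1 ≤ 0
  err : ∀ l p, L.rho l (φ l.1) (χ l) p ≠ 0 →
    ∃ g : F3, L.chg l (Sum.inl g) p.1 ≤ -1 ∧ g.norm + k ≤ bnd L

/-- one step of the recursion -/
def step (χ : ∀ l, L.Tst l) (d : Lg) : L.Tst d :=
  tr L d ((L.Ep n 1).toLinearMap χ (bar d)) 0

theorem ind_ne (l : Lg) {p : L.Pos l} {q : L.Lam l} (h : ind L l p q ≠ 0) : q.1 = p := by
  by_contra h1
  exact h (if_neg h1)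

theorem ind_nl (l : Lg) : ind L l 0 ∈ L.NL l := by
  intro p hp
  by_contra h
  rw [ind_ne L l h] at hp
  simp [Letters.wR, Letters.wS] at hp

theorem ind_d (l : Lg) : L.dL l (ind L l 0) = 1 := by
  rw [Letters.dL, val_in L l (L.zero_mem_lam l)]
  exact if_pos rfl

theorem inv_zero (hφ : ∀ i, constantCoeff (φ i) = 0) : Inv L φ 0 fun l => ind L l 0 := by
  refine ⟨ind_nl L, ind_d L, fun l p h g => ?_, fun l p h => ?_⟩
  · rw [ind_ne L l h]
    simp [Letters.chg]
  · rw [(φ l.1).as_sum, map_sum, LinearMap.sum_apply, Finset.sum_apply] at h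
    obtain ⟨m, hm, h1⟩ := Finset.exists_ne_zero_of_sum_ne_zero h
    rw [rho_ind L l (L.zero_mem_lam l), Pi.smul_apply, smul_eq_mul] at h1
    have h2 := ind_ne L l (right_ne_zero_of_mul h1)
    have h3 : ∀ w, L.sgn l w * p.1 w = -(m w : ℤ) := by
      intro w
      rw [h2]
      change L.sgn l w * (0 - L.sgn l w * m w) = _
      rw [zero_sub, mul_neg, ← mul_assoc, sgn_sq, one_mul]
    have hm0 : m ≠ 0 := by
      rintro rfl
      exact mem_support_iff.mp hm (hφ l.1)
    obtain ⟨w, hw⟩ := Finsupp.ne_iff.mp hm0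
    have h4 : L.chg l (L.cmark l w.1) p.1 ≤ -1 := by
      rw [Letters.chg, ← Finset.add_sum_erase _ _ (Finset.mem_univ w), if_pos rfl, h3]
      have h5 : ∑ x ∈ Finset.univ.erase w,
          (if L.cmark l x.1 = L.cmark l w.1 then L.sgn l x * p.1 x else 0) ≤ 0 := by
        refine Finset.sum_nonpos fun x _ => ?_
        rw [h3]
        split_ifs
        · omega
        · exact le_rfl
      have h6 : m w ≠ 0 := hw
      omega
    have h5 := Finset.le_sup (f := fun v : L.Var =>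
      Sum.elim FreeGroup.norm (fun _ => 0) (L.vmark v)) (Finset.mem_univ (⟨l, w⟩ : L.Var))
    have h6 := (p.2.2.1 (L.cmark l w.1)).1
    change Sum.elim FreeGroup.norm (fun _ => 0) (L.cmark l w.1) ≤ bnd L at h5
    rcases h7 : L.cmark l w.1 with g | l'
    · rw [h7] at h4 h5
      exact ⟨g, h4, h5⟩
    · rw [h7] at h4 h6
      change 0 ≤ _ at h6
      omega

variable (hn : ∀ v, L.vown v = false → n v ∈ L.Low v)
include hn

theorem supp (χ : ∀ l, L.Tst l) (e : Lg) (p : L.Pos e)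
    (h : L.Ep n 1 (Function.update χ e (ind L e p)) ≠ 0) : ∃ q : ∀ l, L.Lam l, (q e).1 = p ∧
      (∀ l, l ≠ e → χ l (q l) ≠ 0) ∧ (∀ m, 0 ≤ ∑ l, L.chg l m (q l).1) ∧
        8 * ∑ l, L.wR l (q l).1 ≤ ∑ l, L.wS l (q l).1 := by
  rw [Letters.Ep, L.EE_apply] at h
  obtain ⟨q, -, h1⟩ := Finset.exists_ne_zero_of_sum_ne_zero h
  have h2 := Finset.prod_ne_zero_iff.mp (right_ne_zero_of_mul h1)
  refine ⟨q, ?_, fun l hl => ?_, L.ET_supp n hn 1 _ (fun l => (q l).2.1) (left_ne_zero_of_mul h1)⟩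
  · have h3 := h2 e (Finset.mem_univ _)
    rw [Function.update_self] at h3
    exact ind_ne L e h3
  · have h3 := h2 l (Finset.mem_univ _)
    rwa [Function.update_of_ne hl] at h3

omit hn in
theorem tr_ne {d : Lg} {Φ : L.Tst (bar d) →ₗ[ℚ] ℚ} {p : L.Lam d} (h : tr L d Φ 0 p ≠ 0) :
    free L p.1 ∧ Φ (ind L (bar d) p.1) ≠ 0 := by
  rw [tr, add_zero] at h
  split_ifs at h with h1
  · exact ⟨h1, h⟩
  · exact absurd rfl h

variable (hΨ : L.sub n (L.Psi φ) ∈ L.NN)
include hΨ

theorem ker_step (χ : ∀ l, L.Tst l) (e : Lg) (x : L.Tst e)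
    (h : L.Ep n 1 (Function.update χ e (L.rho e (φ e.1) x)) ≠ 0) : ∃ l, l ≠ e ∧
      L.Ep n 1 (Function.update (Function.update χ l (L.rho l (φ l.1) (χ l))) e x) ≠ 0 := by
  by_contra hcon
  push Not at hcon
  have h1 := L.Ep_ker n hn φ hΨ 1 (Function.update χ e x)
  rw [Cl, Finset.sum_eq_single e] at h1
  · rw [Function.update_self, Function.update_idem] at h1
    refine h ((mul_eq_zero.mp h1).resolve_left ?_)
    rw [Letters.sg]
    split_ifs <;> norm_num
  · intro l _ hl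
    rw [Function.update_of_ne hl, Function.update_comm hl.symm, hcon l hl, mul_zero]
  · intro h2
    exact absurd (Finset.mem_univ _) h2

theorem inv_step {k : ℕ} {χ : ∀ l, L.Tst l} (h : Inv L φ k χ) :
    Inv L φ (k + 1) (step L n χ) := by
  refine ⟨fun d p hp => ?_, fun d => ?_, fun d p hp g => ?_, fun d p hp => ?_⟩
  · by_contra h1
    obtain ⟨h2, h3⟩ := tr_ne L h1
    obtain ⟨q, h4, h5, -, h6⟩ := supp L n hn χ (bar d) p.1 h3
    rcases hp with hp | ⟨b, hp⟩
    · rw [← Finset.add_sum_erase _ _ (Finset.mem_univ (bar d)),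
        ← Finset.add_sum_erase _ _ (Finset.mem_univ (bar d)), h4, wS_bar, wR_bar] at h6
      have h7 : ∑ l ∈ Finset.univ.erase (bar d), L.wS l (q l).1 ≤
          ∑ l ∈ Finset.univ.erase (bar d), L.wR l (q l).1 :=
        Finset.sum_le_sum fun l hl => not_lt.mp fun h8 =>
          h5 l (Finset.ne_of_mem_erase hl) (h.nl l (q l) (Or.inl h8))
      have h8 : 0 ≤ ∑ l ∈ Finset.univ.erase (bar d), L.wR l (q l).1 :=
        Finset.sum_nonneg fun l _ => wR_nonneg L l (q l).2.1
      have h9 := wR_nonneg L d p.2.1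
      omega
    · exact hp (h2 b)
  · have h1 : free L (0 : L.Pos d) := fun _ => rfl
    rw [Letters.dL, step, val_tr0, if_pos h1, MultilinearMap.toLinearMap_apply,
      L.Ep_supp n hn]
    · refine Finset.prod_eq_one fun l _ => ?_
      by_cases hl : l = bar d
      · subst hl
        rw [Function.update_self]
        exact ind_d L _
      · rw [Function.update_of_ne hl]
        exact h.d1 l
    · intro l
      by_cases hl : l = bar d
      · subst hl
        rw [Function.update_self]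
        exact ind_nl L _
      · rw [Function.update_of_ne hl]
        exact h.nl l
  · obtain ⟨-, h3⟩ := tr_ne L hp
    obtain ⟨q, h4, h5, h6, -⟩ := supp L n hn χ (bar d) p.1 h3
    have h7 := h6 (Sum.inl (sh d g))
    rw [← Finset.add_sum_erase _ _ (Finset.mem_univ (bar d)), h4, chg_bar] at h7
    have h8 : ∑ l ∈ Finset.univ.erase (bar d), L.chg l (Sum.inl (sh d g)) (q l).1 ≤ 0 :=
      Finset.sum_nonpos fun l hl => h.neg l (q l) (h5 l (Finset.ne_of_mem_erase hl)) _
    omega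
  · rw [step, rho_tr] at hp
    obtain ⟨-, h3⟩ := tr_ne L hp
    obtain ⟨l, hl, h4⟩ := ker_step L n φ hn hΨ χ (bar d) _ h3
    obtain ⟨q, h5, h6, h7, -⟩ := supp L n hn _ (bar d) p.1 h4
    have h8 := h6 l hl
    rw [Function.update_self] at h8
    obtain ⟨g, h9, h10⟩ := h.err l (q l) h8
    obtain ⟨g, rfl⟩ := sh_surj d g
    have h11 := h7 (Sum.inl (sh d g))
    rw [← Finset.add_sum_erase _ _ (Finset.mem_univ (bar d)), h5, chg_bar,
      ← Finset.add_sum_erase _ _ (Finset.mem_erase.mpr ⟨hl, Finset.mem_univ l⟩)] at h11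
    have h12 : ∑ x ∈ (Finset.univ.erase (bar d)).erase l,
        L.chg x (Sum.inl (sh d g)) (q x).1 ≤ 0 := by
      refine Finset.sum_nonpos fun x hx => h.neg x (q x) ?_ _
      have h13 := h6 x (Finset.ne_of_mem_erase (Finset.mem_of_mem_erase hx))
      rwa [Function.update_of_ne (Finset.ne_of_mem_erase hx)] at h13
    have h13 : L.chg d (Sum.inl g) p.1 ≤ -1 := by omega
    have h14 : g ∉ Br d := by
      intro h15
      have h16 := (p.2.2.1 (Sum.inl g)).1
      rw [loB, if_pos h15] at h16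
      omega
    rw [norm_sh d h14] at h10
    exact ⟨g, h13, by omega⟩

omit hn hΨ in
theorem Inv.ker {k : ℕ} {χ : ∀ l, L.Tst l} (h : Inv L φ k χ) (hk : bnd L < k) (l : Lg) :
    L.rho l (φ l.1) (χ l) = 0 := by
  funext p
  by_contra h1
  obtain ⟨g, -, h2⟩ := h.err l p h1
  omega

end Trv

namespace Letters
variable (L : Letters)

open Trv in
theorem triv_conc (n : L.Var → L.P) (hn : ∀ v, L.vown v = false → n v ∈ L.Low v)
    (φ : ∀ i, MvPolynomial (L.WV i) ℚ) (hφ : ∀ i, constantCoeff (φ i) = 0)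
    (hΨ : L.sub n (L.Psi φ) ∈ L.NN) (l : Lg) :
    ∃ χ ∈ L.NL l, L.rho l (φ l.1) χ = 0 ∧ L.dL l χ = 1 ∧
      ∀ b, L.rho l (L.zl φ l b) χ ∈ W1 (L.rho l (φ l.1)) := by
  have h1 : ∀ k : ℕ, ∃ χ, Inv L φ k χ := by
    intro k
    induction k with
    | zero => exact ⟨_, inv_zero L φ hφ⟩
    | succ k ih =>
      obtain ⟨χ, h⟩ := ih
      exact ⟨_, inv_step L n φ hn hΨ h⟩
  obtain ⟨χ, h⟩ := h1 (bnd L + 1)
  have h' := inv_step L n φ hn hΨ h
  have hk := h'.ker L φ (by omega) l
  refine ⟨step L n χ l, h'.nl l, hk, h'.d1 l, fun b => ?_⟩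
  obtain ⟨i, s⟩ := l
  cases s
  · have h2 : (L.Ep n 1).toLinearMap χ (i, true) ∘ₗ L.rho (i, true) (φ i) = 0 := by
      ext1 x
      by_contra h3
      obtain ⟨l, hl, h4⟩ := ker_step L n φ hn hΨ χ (i, true) x h3
      rw [h.ker L φ (by omega) l] at h4
      refine h4 ((L.Ep n 1).map_coord_zero l ?_)
      rw [Function.update_of_ne hl, Function.update_self]
    have h3 := rho_tr_eb L i ((L.Ep n 1).toLinearMap χ (i, true)) (b.2, b.1) (φ i)
    have h4 : tr L (i, false) (0 : L.Tst (i, true) →ₗ[ℚ] ℚ) (eb L (b.2, b.1)) = 0 := by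
      funext p
      exact ite_self _
    rw [h2, h4] at h3
    obtain ⟨v, hv⟩ : ∃ v, v = tr L (i, false) ((L.Ep n 1).toLinearMap χ (i, true))
      (eb L (b.2, b.1)) := ⟨_, rfl⟩
    rw [← hv] at h3
    have h5 : L.rho (i, false) (L.zl φ (i, false) b) (step L n χ (i, false)) =
        L.rho (i, false) (φ i) (-v) := by
      rw [map_neg]
      exact (neg_eq_of_add_eq_zero_right h3.symm).symm
    refine Submodule.mem_iSup_of_mem 1 ⟨-v, ?_, by rw [pow_one]; exact h5.symm⟩
    change (L.rho (i, false) (φ i) ^ (2 * 1)) (-v) = 0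
    rw [mul_one, pow_two, Module.End.mul_apply, ← h5, ← Module.End.mul_apply, ← map_mul, mul_comm,
      map_mul, Module.End.mul_apply]
    exact (congrArg _ hk).trans (map_zero _)
  · have h2 : L.rho (i, true) (L.zl φ (i, true) b) (step L n χ (i, true)) = 0 := by
      funext p
      change L.rho (i, true) (monomial (Finsupp.single (none, b) 1) 1) _ p = 0
      rw [L.rho_monomial, step, val_tr0, if_neg, mul_zero]
      intro h3
      have h4 : p.1 (none, b) + 1 * ((Finsupp.single (none, b) 1 : L.WV i →₀ ℕ) (none, b) : ℤ) =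
        0 := h3 b
      have h5 := p.2.1 (none, b)
      rw [Finsupp.single_eq_same] at h4
      omega
    rw [h2]
    exact Submodule.zero_mem _

end Letters
end Vale.Agent.P215Z
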