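import Vale.Agent.P215Z.Core.Defs

/-! K1: strong Lefschetz, in the form used for multilinear functionals -/

noncomputable section
namespace Vale.Agent.P215Z

section
variable {M : Type} [AddCommGroup M] [Module ℚ M]

theorem W1_le_W0 (t : Module.End ℚ M) : W1 t ≤ W0 t := by
  refine iSup_mono fun j => Submodule.map_mono fun x hx => ?_
  rw [LinearMap.mem_ker] at hx ⊢
  rw [pow_succ', Module.End.mul_apply, hx, map_zero]

theorem ker_le_W0 (t : Module.End ℚ M) : LinearMap.ker t ≤ W0 t := fun x hx =>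
  Submodule.mem_iSup_of_mem 0 ⟨x, by simpa using hx, rfl⟩

theorem Lef.stab {t f : Module.End ℚ M} (h : Commute t f) (n : ℕ → ℕ) {x : M}
    (hx : x ∈ ⨆ j : ℕ, (LinearMap.ker (t ^ n j)).map (t ^ j)) :
    f x ∈ ⨆ j : ℕ, (LinearMap.ker (t ^ n j)).map (t ^ j) := by
  have key : ∀ (m : ℕ) y, (t ^ m) (f y) = f ((t ^ m) y) := fun m y =>
    LinearMap.congr_fun (h.pow_left m).eq y
  refine (iSup_le (fun j => ?_) :
    _ ≤ Submodule.comap f (⨆ j : ℕ, (LinearMap.ker (t ^ n j)).map (t ^ j))) hx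
  rintro _ ⟨y, hy, rfl⟩
  refine Submodule.mem_iSup_of_mem j ⟨f y, ?_, key j y⟩
  have hy' : (t ^ n j) y = 0 := hy
  change (t ^ n j) (f y) = 0
  rw [key, hy', map_zero]

theorem W0_stab {t f : Module.End ℚ M} (h : Commute t f) {x : M} (hx : x ∈ W0 t) : f x ∈ W0 t :=
  Lef.stab h (fun j => 2 * j + 1) hx

theorem W1_stab {t f : Module.End ℚ M} (h : Commute t f) {x : M} (hx : x ∈ W1 t) : f x ∈ W1 t :=
  Lef.stab h (fun j => 2 * j) hx

end

namespace Lef

variable {ι : Type} [DecidableEq ι] [Fintype ι]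

/-- the lowering operator on functions of exponent vectors -/
def Dn (μ : (ι → ℕ) → ℚ) (e : ι → ℕ) : ℚ := ∑ i, μ (e + Pi.single i 1)

/-- the raising operator -/
def Up (n : ι → ℕ) (μ : (ι → ℕ) → ℚ) (e : ι → ℕ) : ℚ :=
  ∑ i, (e i : ℚ) * (n i - e i) * μ (e - Pi.single i 1)

/-- functions supported in the box -/
def Box (n : ι → ℕ) (μ : (ι → ℕ) → ℚ) : Prop := ∀ e i, n i ≤ e i → μ e = 0

/-- homogeneous functions -/
def Hom (d : ℕ) (μ : (ι → ℕ) → ℚ) : Prop := ∀ e, ∑ i, e i ≠ d → μ e = 0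

omit [Fintype ι] in
theorem sub_add {e : ι → ℕ} {i : ι} (h : e i ≠ 0) : e - Pi.single i 1 + Pi.single i 1 = e := by
  funext k
  by_cases hk : k = i
  · subst hk
    simp only [Pi.add_apply, Pi.sub_apply, Pi.single_eq_same]
    omega
  · simp [hk]

theorem deg_add (e : ι → ℕ) (i : ι) : ∑ k, (e + Pi.single i 1 : ι → ℕ) k = ∑ k, e k + 1 := by
  simp [Finset.sum_add_distrib]

theorem comm (n : ι → ℕ) (μ : (ι → ℕ) → ℚ) (e : ι → ℕ) :
    Dn (Up n μ) e = Up n (Dn μ) e + (∑ i, ((n i : ℚ) - 1) - 2 * (∑ i, e i : ℕ)) * μ e := by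
  simp only [Dn, Up, Finset.mul_sum, Nat.cast_sum, ← Finset.sum_sub_distrib, Finset.sum_mul]
  rw [Finset.sum_comm, ← Finset.sum_add_distrib]
  refine Finset.sum_congr rfl fun k _ => ?_
  rw [← Finset.add_sum_erase _ _ (Finset.mem_univ k), ← Finset.add_sum_erase _ _ (Finset.mem_univ k),
    add_right_comm]
  congr 1
  · simp only [Pi.add_apply, Pi.single_eq_same, add_tsub_cancel_right, Nat.cast_add, Nat.cast_one]
    by_cases h : e k = 0
    · simp [h]
    · rw [sub_add h]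
      ring
  · refine Finset.sum_congr rfl fun i hi => ?_
    have h : k ≠ i := (Finset.ne_of_mem_erase hi).symm
    have h1 : e + Pi.single i 1 - Pi.single k 1 = e - Pi.single k 1 + Pi.single i 1 := by
      funext m
      by_cases hm : m = i
      · subst hm
        simp [h.symm]
      · simp [hm]
    rw [h1]
    simp [h]

theorem Box.up {n : ι → ℕ} {μ : (ι → ℕ) → ℚ} (h : Box n μ) : Box n (Up n μ) := by
  intro e k hk
  refine Finset.sum_eq_zero fun i _ => ?_
  by_cases hi : k = i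
  · subst hi
    rcases hk.eq_or_lt with h1 | h1
    · simp [h1]
    · rw [h _ k (by simp only [Pi.sub_apply, Pi.single_eq_same]; omega), mul_zero]
  · rw [h _ k (by simpa [hi] using hk), mul_zero]

theorem Hom.up (n : ι → ℕ) {d : ℕ} {μ : (ι → ℕ) → ℚ} (h : Hom d μ) : Hom (d + 1) (Up n μ) := by
  intro e he
  refine Finset.sum_eq_zero fun i _ => ?_
  by_cases hi : e i = 0
  · simp [hi]
  · rw [h _ fun h1 => he (by rw [← sub_add hi, deg_add, h1]), mul_zero]

theorem up_smul (n : ι → ℕ) (c : ℚ) (μ : (ι → ℕ) → ℚ) : Up n (c • μ) = c • Up n μ := by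
  funext e
  simp only [Up, Pi.smul_apply, smul_eq_mul, Finset.mul_sum]
  exact Finset.sum_congr rfl fun i _ => by ring

theorem Hom.comm (n : ι → ℕ) {d : ℕ} {μ : (ι → ℕ) → ℚ} (h : Hom d μ) :
    Dn (Up n μ) = Up n (Dn μ) + (∑ i, ((n i : ℚ) - 1) - 2 * d) • μ := by
  funext e
  rw [Lef.comm, Pi.add_apply, Pi.smul_apply, smul_eq_mul]
  by_cases he : ∑ i, e i = d
  · rw [he]
  · rw [h e he, mul_zero, mul_zero]

/-- the main lemma -/
theorem key {n : ι → ℕ} {d : ℕ} {μ : (ι → ℕ) → ℚ} (hb : Box n μ) (hh : Hom d μ)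
    (hd : ∑ i, ((n i : ℚ) - 1) < 2 * d) (h0 : Up n (Dn μ) = 0) : μ = 0 := by
  have h1 : ∀ k, Box n ((Up n)^[k] μ) ∧ Hom (d + k) ((Up n)^[k] μ) := by
    intro k
    induction k with
    | zero => exact ⟨hb, hh⟩
    | succ k ih =>
      rw [Function.iterate_succ_apply']
      exact ⟨ih.1.up, ih.2.up n⟩
  have h2 : ∀ k, ∃ c : ℚ, c < 0 ∧ Dn (Up n ((Up n)^[k] μ)) = c • (Up n)^[k] μ := by
    intro k
    induction k with
    | zero => exact ⟨_, sub_neg.2 hd, by rw [Function.iterate_zero_apply, hh.comm, h0, zero_add]⟩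
    | succ k ih =>
      obtain ⟨c, hc, ih⟩ := ih
      refine ⟨c + (∑ i, ((n i : ℚ) - 1) - 2 * (d + (k + 1) : ℕ)), ?_, ?_⟩
      · push_cast
        have : (0 : ℚ) ≤ k := Nat.cast_nonneg k
        linarith
      · rw [(h1 (k + 1)).2.comm, Function.iterate_succ_apply', ih, up_smul, add_smul]
  have h3 : ∀ k, (Up n)^[k] μ = 0 → μ = 0 := by
    intro k
    induction k with
    | zero => exact id
    | succ k ih =>
      intro h
      obtain ⟨c, hc, h4⟩ := h2 k
      rw [Function.iterate_succ_apply'] at h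
      rw [h] at h4
      have h5 : Dn (0 : (ι → ℕ) → ℚ) = 0 := funext fun e => by simp [Dn]
      exact ih ((smul_eq_zero.1 (h4.symm.trans h5)).resolve_left hc.ne)
  refine h3 (∑ i, n i + 1) (funext fun e => ?_)
  by_cases he : ∃ i, n i ≤ e i
  · exact he.elim ((h1 _).1 e)
  · refine (h1 _).2 e fun h => ?_
    have : ∑ i, e i ≤ ∑ i, n i :=
      Finset.sum_le_sum fun i _ => (not_le.1 fun h6 => he ⟨i, h6⟩).le
    omega

/-- the homogeneous part -/
def part (d : ℕ) (μ : (ι → ℕ) → ℚ) (e : ι → ℕ) : ℚ := if ∑ i, e i = d then μ e else 0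

omit [DecidableEq ι] in
theorem part_hom (d : ℕ) (μ : (ι → ℕ) → ℚ) : Hom d (part d μ) := fun _ h => if_neg h

omit [DecidableEq ι] in
theorem Box.part {n : ι → ℕ} {μ : (ι → ℕ) → ℚ} (h : Box n μ) (d : ℕ) : Box n (part d μ) :=
  fun e i hi => by rw [Lef.part, h e i hi, ite_self]

theorem dn_part (d : ℕ) (μ : (ι → ℕ) → ℚ) : Dn (part (d + 1) μ) = part d (Dn μ) := by
  funext e
  simp only [Dn, part, deg_add, add_left_inj]
  split_ifs <;> simp

theorem up_zero (n : ι → ℕ) : Up n 0 = 0 := funext fun e => by simp [Up]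

theorem one {n : ι → ℕ} {μ : (ι → ℕ) → ℚ} (hb : Box n μ) (h0 : Dn μ = 0) {e : ι → ℕ}
    (he : ∑ i, ((n i : ℚ) - 1) < 2 * (∑ i, e i : ℕ)) : μ e = 0 := by
  have h1 : Dn (part (∑ i, e i) μ) = 0 := by
    funext a
    have h2 := congrFun h0 a
    simp only [Dn, part, deg_add, Pi.zero_apply] at h2 ⊢
    split_ifs <;> simp [h2]
  have h2 := congrFun (key (hb.part _) (part_hom _ μ) he (by rw [h1, up_zero])) e
  rwa [part, if_pos rfl] at h2

theorem zero {n : ι → ℕ} {ν : (ι → ℕ) → ℚ} (hb : Box n ν) (hb' : Box n (Dn ν))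
    (h0 : Dn (Dn ν) = 0) {e : ι → ℕ} (he : ∑ i, ((n i : ℚ) - 1) = 2 * (∑ i, e i : ℕ)) :
    Dn ν e = 0 := by
  set d := ∑ i, e i with hd
  have hlt : ∑ i, ((n i : ℚ) - 1) < 2 * (d + 1 : ℕ) := by
    rw [he]
    push_cast
    linarith
  have h1 : Dn (part d (Dn ν)) = 0 := by
    funext a
    have h2 := congrFun h0 a
    rw [Dn] at h2 ⊢
    simp only [part, deg_add, Pi.zero_apply] at h2 ⊢
    split_ifs <;> simp [h2]
  have h2 : Up n (part d (Dn ν)) = 0 := by
    refine key (hb'.part d).up ((part_hom d _).up n) hlt ?_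
    rw [(part_hom d _).comm, h1, up_zero, he, sub_self, zero_smul, add_zero, up_zero]
  have h3 : part (d + 1) ν = 0 := key (hb.part _) (part_hom _ ν) hlt (by rw [dn_part, h2])
  have h4 := congrFun (dn_part d ν) e
  rw [h3, part, if_pos rfl] at h4
  rw [← h4]
  simp [Dn]

variable {M : ι → Type} [∀ i, AddCommGroup (M i)] [∀ i, Module ℚ (M i)]

/-- reduction to the generators -/
theorem red (E : MultilinearMap ℚ M ℚ) (K : ∀ i, ℕ → Submodule ℚ (M i))
    (h : ∀ x : ∀ i, M i, (∀ i, ∃ j, x i ∈ K i j) → E x = 0) (x : ∀ i, M i)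
    (hx : ∀ i, x i ∈ ⨆ j, K i j) : E x = 0 := by
  have key : ∀ s : Finset ι, ∀ x : ∀ i, M i, (∀ i ∈ s, x i ∈ ⨆ j, K i j) →
      (∀ i ∉ s, ∃ j, x i ∈ K i j) → E x = 0 := by
    intro s
    induction s using Finset.induction_on with
    | empty => exact fun x _ h2 => h x fun i => h2 i (Finset.notMem_empty i)
    | insert a s ha ih =>
      intro x h1 h2
      have h3 : (⨆ j, K a j) ≤ LinearMap.ker (E.toLinearMap x a) := by
        refine iSup_le fun j y hy => ih _ (fun i hi => ?_) fun i hi => ?_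
        · rw [Function.update_of_ne (ne_of_mem_of_not_mem hi ha)]
          exact h1 i (Finset.mem_insert_of_mem hi)
        · by_cases hia : i = a
          · subst hia
            exact ⟨j, by rwa [Function.update_self]⟩
          · rw [Function.update_of_ne hia]
            exact h2 i fun h4 => (Finset.mem_insert.1 h4).elim hia hi
      have h4 : E (Function.update x a (x a)) = 0 := h3 (h1 a (Finset.mem_insert_self a s))
      rwa [Function.update_eq_self] at h4
  exact key Finset.univ x (fun i _ => hx i) fun i hi => absurd (Finset.mem_univ i) hi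

variable (t : ∀ i, Module.End ℚ (M i)) (ε : ι → ℚ)

/-- the function of exponent vectors attached to a functional -/
def fn (E : (∀ i, M i) → ℚ) (v : ∀ i, M i) (e : ι → ℕ) : ℚ :=
  (∏ i, ε i ^ e i) * E fun i => (t i ^ e i) (v i)

theorem dn_fn (E : MultilinearMap ℚ M ℚ) (v : ∀ i, M i) :
    Dn (fn t ε E v) = fn t ε (Cl t ε E) v := by
  funext e
  simp only [Dn, fn, Cl, Finset.mul_sum]
  refine Finset.sum_congr rfl fun i _ => ?_
  have h1 : ∏ k, ε k ^ (e + Pi.single i 1 : ι → ℕ) k = (∏ k, ε k ^ e k) * ε i := by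
    simp only [Pi.add_apply, pow_add, Finset.prod_mul_distrib]
    simp [Pi.single_apply]
  have h2 : (fun k => (t k ^ (e + Pi.single i 1 : ι → ℕ) k) (v k)) =
      Function.update (fun k => (t k ^ e k) (v k)) i (t i ((t i ^ e i) (v i))) := by
    funext k
    by_cases hk : k = i
    · subst hk
      simp [pow_succ']
    · simp [hk]
  rw [h1, h2, mul_assoc]

omit [DecidableEq ι] in
theorem box_fn (E : MultilinearMap ℚ M ℚ) {v : ∀ i, M i} {n : ι → ℕ}
    (hv : ∀ i, (t i ^ n i) (v i) = 0) : Box n (fn t ε E v) := fun e i hi => by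
  obtain ⟨m, hm⟩ := Nat.exists_eq_add_of_le' hi
  rw [fn, E.map_coord_zero i, mul_zero]
  rw [hm, pow_add, Module.End.mul_apply, hv, map_zero]

end Lef

variable {ι : Type} [DecidableEq ι] [Fintype ι] {M : ι → Type} [∀ i, AddCommGroup (M i)]
  [∀ i, Module ℚ (M i)] (t : ∀ i, Module.End ℚ (M i)) (ε : ι → ℚ)

theorem lef_one (hε : ∀ i, ε i ≠ 0) (E : MultilinearMap ℚ M ℚ) (hE : ∀ x, Cl t ε E x = 0)
    (x : ∀ i, M i) (hx : ∀ i, x i ∈ W0 (t i)) (i0 : ι) (h1 : x i0 ∈ W1 (t i0)) : E x = 0 := by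
  refine Lef.red E (fun i j => (LinearMap.ker (t i ^ (2 * j + if i = i0 then 0 else 1))).map
    (t i ^ j)) (fun y hy => ?_) x fun i => ?_
  · choose j v hv hy using hy
    have h2 : Lef.Dn (Lef.fn t ε E v) = 0 := by
      rw [Lef.dn_fn]
      funext e
      simp [Lef.fn, hE]
    have h3 := Lef.one (Lef.box_fn t ε E hv) h2 (e := j) (by
      push_cast
      rw [Finset.mul_sum]
      refine Finset.sum_lt_sum (fun i _ => ?_) ⟨i0, Finset.mem_univ _, by simp⟩
      split_ifs <;> simp)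
    rw [Lef.fn, funext hy] at h3
    exact (mul_eq_zero.1 h3).resolve_left
      (Finset.prod_ne_zero_iff.2 fun i _ => pow_ne_zero _ (hε i))
  · by_cases h : i = i0
    · subst h
      simpa only [if_true, add_zero, W1] using h1
    · simpa only [if_neg h, W0] using hx i

theorem lef_zero (hε : ∀ i, ε i ≠ 0) (E G : MultilinearMap ℚ M ℚ) (hG : ∀ x, E x = Cl t ε G x)
    (hE : ∀ x, Cl t ε E x = 0) (x : ∀ i, M i) (hx : ∀ i, x i ∈ W0 (t i)) : E x = 0 := by
  refine Lef.red E (fun i j => (LinearMap.ker (t i ^ (2 * j + 1))).map (t i ^ j))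
    (fun y hy => ?_) x hx
  choose j v hv hy using hy
  have h1 : Lef.Dn (Lef.fn t ε G v) = Lef.fn t ε E v := by rw [Lef.dn_fn, ← funext hG]
  have h2 : Lef.Dn (Lef.fn t ε E v) = 0 := by
    rw [Lef.dn_fn]
    funext e
    simp [Lef.fn, hE]
  have h3 := Lef.zero (Lef.box_fn t ε G hv) (h1 ▸ Lef.box_fn t ε E hv) (h1 ▸ h2) (e := j) (by
    push_cast
    rw [Finset.mul_sum]
    exact Finset.sum_congr rfl fun i _ => by ring)
  rw [h1, Lef.fn, funext hy] at h3
  exact (mul_eq_zero.1 h3).resolve_left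
    (Finset.prod_ne_zero_iff.2 fun i _ => pow_ne_zero _ (hε i))

end Vale.Agent.P215Z
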