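import Vale.Agent.P215Z.Core.Lef

/-! K3: the abstract contradiction -/

noncomputable section
namespace Vale.Agent.P215Z

namespace NetF

/-! ### matrices of degree two -/

theorem lie_apply {R : Type} [CommRing R] (A B : M2 R) (a b : Fin 2) :
    ⁅A, B⁆ a b = ∑ j, (A a j * B j b - B a j * A j b) := by
  rw [Ring.lie_def, Matrix.sub_apply, Matrix.mul_apply, Matrix.mul_apply, Finset.sum_sub_distrib]

theorem lie3_apply {R : Type} [CommRing R] (A B C : M2 R) (a b : Fin 2) :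
    ⁅⁅A, B⁆, C⁆ a b = ∑ j, ∑ k, (A a j * B j k * C k b - A j k * B a j * C k b -
      (A j k * B k b * C a j - A k b * B j k * C a j)) := by
  simp only [lie_apply, Fin.sum_univ_two]
  ring

/-- not a scalar matrix -/
def NS (η : M2 ℚ) : Prop := ¬ (η 0 0 - η 1 1 = 0 ∧ η 0 1 = 0 ∧ η 1 0 = 0)

/-- the set is not contained in the centraliser of a matrix which is not scalar -/
def Big (X : Set (M2 ℚ)) : Prop := ∀ η, NS η → ∃ ξ ∈ X, ⁅η, ξ⁆ ≠ 0

theorem ad_ad {η θ : M2 ℚ} (hη : NS η) (hθ : NS θ) : ∃ y : M2 ℚ, ⁅θ, ⁅η, y⁆⁆ ≠ 0 := by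
  by_contra h
  have h0 : ∀ (y : M2 ℚ) (a b : Fin 2), ⁅θ, ⁅η, y⁆⁆ a b = 0 := fun y a b => by
    have h1 : ⁅θ, ⁅η, y⁆⁆ = 0 := by
      by_contra h2
      exact h ⟨y, h2⟩
    rw [h1]
    rfl
  have a1 := h0 !![1, 0; 0, 0] 0 0
  have a2 := h0 !![1, 0; 0, 0] 0 1
  have a3 := h0 !![1, 0; 0, 0] 1 0
  have b1 := h0 !![0, 1; 0, 0] 0 0
  have b2 := h0 !![0, 1; 0, 0] 0 1
  have b3 := h0 !![0, 1; 0, 0] 1 0
  have c1 := h0 !![0, 0; 1, 0] 0 0
  have c2 := h0 !![0, 0; 1, 0] 0 1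
  have c3 := h0 !![0, 0; 1, 0] 1 0
  simp only [lie_apply, Fin.sum_univ_two, Matrix.of_apply, Matrix.cons_val', Matrix.cons_val_zero,
    Matrix.cons_val_one, Matrix.cons_val_fin_one] at a1 a2 a3 b1 b2 b3 c1 c2 c3
  have key : ∀ u : ℚ, u * (θ 0 0 - θ 1 1) = 0 → u * θ 0 1 = 0 → u * θ 1 0 = 0 → u = 0 := by
    intro u h1 h2 h3
    by_contra h4
    exact hθ ⟨(mul_eq_zero.1 h1).resolve_left h4, (mul_eq_zero.1 h2).resolve_left h4,
      (mul_eq_zero.1 h3).resolve_left h4⟩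
  exact hη ⟨key _ (by linarith) (by linarith) (by linarith),
    key _ (by linarith) (by linarith) (by linarith), key _ (by linarith) (by linarith) (by linarith)⟩

theorem big_or {U V : Set (M2 ℚ)}
    (h : ∀ x : M2 ℚ, (∀ ξ ∈ U, Matrix.trace (x * ξ) = 0) → x ∈ V) : Big V ∨ Big U := by
  by_contra h1
  rw [not_or] at h1
  obtain ⟨h2, h3⟩ := h1
  simp only [Big, not_forall, not_exists, not_and, not_not] at h2 h3
  obtain ⟨θ, hθ, h2⟩ := h2
  obtain ⟨η, hη, h3⟩ := h3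
  obtain ⟨y, hy⟩ := ad_ad hη hθ
  refine hy (h2 _ (h _ fun ξ hξ => ?_))
  have h4 := h3 ξ hξ
  rw [Ring.lie_def, sub_eq_zero] at h4
  rw [Ring.lie_def, sub_mul, Matrix.trace_sub, mul_assoc y, h4, ← mul_assoc,
    Matrix.trace_mul_comm (y * ξ), mul_assoc, sub_self]

theorem exists_triple {X : Fin 3 → Set (M2 ℚ)} (h : ∀ i, Big (X i)) :
    ∃ ξ : Fin 3 → M2 ℚ, (∀ i, ξ i ∈ X i) ∧ ⁅⁅ξ 0, ξ 1⁆, ξ 2⁆ ≠ 0 := by
  obtain ⟨x, hx, h0⟩ := h 0 !![1, 0; 0, 0] (by simp [NS])
  have h1 : NS x := by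
    rintro ⟨-, h2, h3⟩
    apply h0
    ext a b
    fin_cases a <;> fin_cases b <;> simp [lie_apply, h2, h3]
  obtain ⟨y, hy, h2⟩ := h 1 x h1
  have h3 : NS ⁅x, y⁆ := by
    rintro ⟨h3, h4, h5⟩
    apply h2
    have h6 : ⁅x, y⁆ 0 0 + ⁅x, y⁆ 1 1 = 0 := by
      simp only [lie_apply, Fin.sum_univ_two]
      ring
    ext a b
    fin_cases a <;> fin_cases b
    · change ⁅x, y⁆ 0 0 = 0
      linarith
    · exact h4
    · exact h5
    · change ⁅x, y⁆ 1 1 = 0
      linarith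
  obtain ⟨z, hz, h4⟩ := h 2 _ h3
  refine ⟨![x, y, z], fun i => ?_, h4⟩
  fin_cases i
  · exact hx
  · exact hy
  · exact hz

/-! ### the functionals -/

variable (n : Net)

/-- the operators of the legs -/
abbrev tt (l : Lg) : Module.End ℚ (n.M l) := n.rho l (n.phi l)

theorem comm (l : Lg) (f : n.R l) : Commute (tt n l) (n.rho l f) :=
  (Commute.all (n.phi l) f).map (n.rho l)

theorem prod_inter (T : Finset Lg) (f : ∀ l, n.R l) (k : n.P) (χ : ∀ l, n.M l) :
    n.E ((∏ l ∈ T, n.inc l (f l)) * k) χ =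
      n.E k (T.piecewise (fun l => n.rho l (f l) (χ l)) χ) := by
  induction T using Finset.induction_on generalizing k with
  | empty => rw [Finset.prod_empty, one_mul, Finset.piecewise_empty]
  | insert i T hi ih =>
    rw [Finset.prod_insert hi, mul_comm (n.inc i (f i)), mul_assoc, ih, n.inter,
      Finset.piecewise_insert, Finset.piecewise_eq_of_notMem _ _ _ hi]

theorem prod_univ (f : ∀ l, n.R l) (χ : ∀ l, n.M l) :
    n.E (∏ l, n.inc l (f l)) χ = n.E 1 fun l => n.rho l (f l) (χ l) := by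
  have h := prod_inter n Finset.univ f 1 χ
  rwa [mul_one, Finset.piecewise_univ] at h

theorem ind {p : n.P → Prop} (h0 : p 0) (ha : ∀ x y, p x → p y → p (x + y))
    (hs : ∀ (c : ℚ) x, p x → p (c • x)) (hm : ∀ f : ∀ l, n.R l, p (∏ l, n.inc l (f l)))
    (k : n.P) : p k := by
  have h : k ∈ Submodule.span ℚ {h | ∃ f : ∀ l, n.R l, h = ∏ l, n.inc l (f l)} := by
    rw [n.span]
    exact Submodule.mem_top
  induction h using Submodule.span_induction with
  | mem x hx =>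
    obtain ⟨f, rfl⟩ := hx
    exact hm f
  | zero => exact h0
  | add x y _ _ hx hy => exact ha x y hx hy
  | smul c x _ hx => exact hs c x hx

theorem ker_all (k : n.P) (χ : ∀ l, n.M l) : Cl (tt n) n.eps (n.E k) χ = 0 := by
  induction k using ind n with
  | h0 => simp [Cl]
  | ha x y hx hy =>
    rw [← add_zero (0 : ℚ)]
    nth_rewrite 1 [← hx]
    rw [← hy]
    simp only [Cl, map_add, add_apply, mul_add, Finset.sum_add_distrib]
  | hs c x hx =>
    rw [← mul_zero c, ← hx]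
    simp only [Cl, map_smul, smul_apply, smul_eq_mul, Finset.mul_sum]
    exact Finset.sum_congr rfl fun i _ => by ring
  | hm f =>
    rw [← n.ker fun l => n.rho l (f l) (χ l)]
    refine Finset.sum_congr rfl fun i _ => ?_
    rw [prod_univ]
    congr 2
    funext l
    by_cases h : l = i
    · subst h
      rw [Function.update_self, Function.update_self]
      exact DFunLike.congr_fun (comm n l (f l)).eq.symm (χ l)
    · rw [Function.update_of_ne h, Function.update_of_ne h]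

theorem kill_a {ψ : ∀ l, n.M l} (hψ : ∀ l, ψ l ∈ n.N l) {r : n.P} (hr : r ∈ n.AA) (k : n.P) :
    n.E (r * k) ψ = 0 := by
  let K : Ideal n.P :=
    { carrier := {r | ∀ k, n.E (r * k) ψ = 0}
      add_mem' := fun {x y} hx hy k => by
        rw [add_mul, map_add, add_apply, hx k, hy k, add_zero]
      zero_mem' := fun k => by rw [zero_mul, map_zero, zero_apply]
      smul_mem' := fun c x hx k => by rw [smul_eq_mul, mul_comm c, mul_assoc, hx] }
  have h : n.AA ≤ K := by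
    refine iSup_le fun l => Ideal.map_le_iff_le_comap.2 fun a ha k => ?_
    induction k using ind n with
    | h0 => rw [mul_zero, map_zero, zero_apply]
    | ha x y hx hy => rw [mul_add, map_add, add_apply, hx, hy, add_zero]
    | hs c x hx => rw [mul_smul_comm, map_smul, smul_apply, hx, smul_zero]
    | hm f =>
      rw [n.inter, prod_univ, n.supp]
      · refine Finset.prod_eq_zero (Finset.mem_univ l) ?_
        rw [Function.update_self, ← Module.End.mul_apply, ← map_mul]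
        exact n.d_a l _ ((n.a l).mul_mem_left _ ha) _ (hψ l)
      · intro j
        refine n.N_stab j _ _ ?_
        by_cases h : j = l
        · subst h
          rw [Function.update_self]
          exact n.N_stab j _ _ (hψ j)
        · rw [Function.update_of_ne h]
          exact hψ j
  exact h hr k

/-- a system of tests -/
structure Tests (s : Fin 3 → Bool) (ξ : Fin 3 → M2 ℚ) (χ : ∀ l, n.M l) (y : ∀ l, I2 → n.M l) :
    Prop where
  w0 : ∀ l, χ l ∈ W0 (tt n l)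
  w1 : ∀ l b, y l b - n.rho l (n.z l b) (χ l) ∈ W1 (tt n l)
  on : ∀ l : Lg, l.2 = s l.1 → ∀ b, y l b ∈ n.N l ∧ n.d l (y l b) = ξ l.1 b.1 b.2
  off : ∀ l : Lg, l.2 ≠ s l.1 → χ l ∈ n.N l ∧ n.d l (χ l) = 1 ∧ ∀ b, y l b = 0

theorem exists_tests : ∃ s ξ χ y, Tests n s ξ χ y ∧ ⁅⁅ξ 0, ξ 1⁆, ξ 2⁆ ≠ 0 := by
  let X : Lg → Set (M2 ℚ) := fun l =>
    Xi (tt n l) (fun b => n.rho l (n.z l b)) (n.N l) (n.d l)
  have h1 : ∀ i : Fin 3, ∃ s : Bool, Big (X (i, s)) := fun i =>
    (big_or (n.edge i)).elim (fun h => ⟨true, h⟩) fun h => ⟨false, h⟩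
  choose s hs using h1
  obtain ⟨ξ, hξ, h0⟩ := exists_triple hs
  have h2 : ∀ l : Lg, ∃ (χ : n.M l) (y : I2 → n.M l), χ ∈ W0 (tt n l) ∧
      (∀ b, y b - n.rho l (n.z l b) χ ∈ W1 (tt n l)) ∧
      (l.2 = s l.1 → ∀ b, y b ∈ n.N l ∧ n.d l (y b) = ξ l.1 b.1 b.2) ∧
      (l.2 ≠ s l.1 → χ ∈ n.N l ∧ n.d l χ = 1 ∧ ∀ b, y b = 0) := by
    rintro ⟨i, t⟩
    by_cases h : t = s i
    · subst h
      obtain ⟨χ, h3, ω, h4⟩ := hξ i
      refine ⟨χ, fun b => n.rho _ (n.z _ b) χ + ω b, h3, fun b => ?_, fun _ b => (h4 b).2,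
        fun h5 => absurd rfl h5⟩
      rw [add_sub_cancel_left]
      exact (h4 b).1
    · obtain ⟨χ, h3, h4, h5, h6⟩ := n.triv (i, t)
      refine ⟨χ, fun _ => 0, ker_le_W0 _ h4, fun b => ?_, fun h7 => absurd h7 h,
        fun _ => ⟨h3, h5, fun _ => rfl⟩⟩
      rw [zero_sub]
      exact neg_mem (h6 b)
  choose χ y h3 h4 h5 h6 using h2
  exact ⟨s, ξ, χ, y, ⟨h3, h4, h5, h6⟩, h0⟩

variable {n} {s : Fin 3 → Bool} {ξ : Fin 3 → M2 ℚ} {χ : ∀ l, n.M l} {y : ∀ l, I2 → n.M l}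

theorem Tests.y0 (h : Tests n s ξ χ y) (l : Lg) (b : I2) : y l b ∈ W0 (tt n l) := by
  have h1 := add_mem (W1_le_W0 _ (h.w1 l b)) (W0_stab (comm n l (n.z l b)) (h.w0 l))
  rwa [sub_add_cancel] at h1

theorem Tests.red (h : Tests n s ξ χ y) (T : Finset Lg) (b : Lg → I2) (k : n.P) :
    n.E ((∏ l ∈ T, n.inc l (n.z l (b l))) * k) χ =
      n.E k (T.piecewise (fun l => y l (b l)) χ) := by
  induction T using Finset.induction_on generalizing k with
  | empty => rw [Finset.prod_empty, one_mul, Finset.piecewise_empty]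
  | insert i T hi ih =>
    rw [Finset.prod_insert hi, mul_comm (n.inc i _), mul_assoc, ih, n.inter,
      Finset.piecewise_insert, Finset.piecewise_eq_of_notMem _ _ _ hi, eq_comm, ← sub_eq_zero,
      ← MultilinearMap.map_update_sub]
    refine lef_one (tt n) n.eps n.eps_ne _ (ker_all n k) _ (fun l => ?_) i ?_
    · by_cases h1 : l = i
      · subst h1
        rw [Function.update_self]
        exact W1_le_W0 _ (h.w1 l _)
      · rw [Function.update_of_ne h1]
        by_cases h2 : l ∈ T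
        · rw [Finset.piecewise_eq_of_mem _ _ _ h2]
          exact h.y0 l _
        · rw [Finset.piecewise_eq_of_notMem _ _ _ h2]
          exact h.w0 l
    · rw [Function.update_self]
      exact h.w1 i _

/-- the legs chosen by `σ` -/
def legs (σ : Fin 3 → Bool) : Finset Lg :=
  Finset.univ.map ⟨fun i => (i, σ i), fun _ _ h => congrArg Prod.fst h⟩

theorem mem_legs {σ : Fin 3 → Bool} {l : Lg} : l ∈ legs σ ↔ l.2 = σ l.1 := by
  rw [legs, Finset.mem_map]
  constructor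
  · rintro ⟨i, -, rfl⟩
    rfl
  · intro h
    exact ⟨l.1, Finset.mem_univ _, Prod.ext rfl h.symm⟩

theorem prod_legs {R : Type} [CommMonoid R] (σ : Fin 3 → Bool) (f : Lg → R) :
    ∏ l ∈ legs σ, f l = f (0, σ 0) * f (1, σ 1) * f (2, σ 2) := by
  rw [legs, Finset.prod_map, Fin.prod_univ_three]
  rfl

theorem Tests.eval (h : Tests n s ξ χ y) (σ : Fin 3 → Bool) (b : Fin 3 → I2) :
    n.E (n.inc (0, σ 0) (n.z _ (b 0)) * n.inc (1, σ 1) (n.z _ (b 1)) *
      n.inc (2, σ 2) (n.z _ (b 2))) χ =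
      (if σ 0 = s 0 then ξ 0 (b 0).1 (b 0).2 else 0) *
        (if σ 1 = s 1 then ξ 1 (b 1).1 (b 1).2 else 0) *
        (if σ 2 = s 2 then ξ 2 (b 2).1 (b 2).2 else 0) ∧
    ∀ r ∈ n.AA, ∀ k, n.E (n.inc (0, σ 0) (n.z _ (b 0)) * n.inc (1, σ 1) (n.z _ (b 1)) *
      n.inc (2, σ 2) (n.z _ (b 2)) * (r * k)) χ = 0 := by
  have h1 := h.red (legs σ) fun l => b l.1
  rw [prod_legs] at h1
  have h2 := h1 1
  rw [mul_one] at h2
  rw [h2]
  simp only [h1]
  by_cases h3 : σ = s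
  · subst h3
    have h4 : ∀ l, (legs σ).piecewise (fun l => y l (b l.1)) χ l ∈ n.N l := by
      intro l
      by_cases h5 : l ∈ legs σ
      · rw [Finset.piecewise_eq_of_mem _ _ _ h5]
        exact (h.on l (mem_legs.1 h5) _).1
      · rw [Finset.piecewise_eq_of_notMem _ _ _ h5]
        exact (h.off l fun h6 => h5 (mem_legs.2 h6)).1
    refine ⟨?_, fun r hr k => kill_a n h4 hr k⟩
    rw [n.supp _ h4, if_pos rfl, if_pos rfl, if_pos rfl,
      ← prod_legs σ fun l => ξ l.1 (b l.1).1 (b l.1).2]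
    refine (Finset.prod_subset (Finset.subset_univ (legs σ)) fun l _ h5 => ?_).symm.trans
      (Finset.prod_congr rfl fun l h5 => ?_)
    · rw [Finset.piecewise_eq_of_notMem _ _ _ h5]
      exact (h.off l fun h6 => h5 (mem_legs.2 h6)).2.1
    · rw [Finset.piecewise_eq_of_mem _ _ _ h5]
      exact (h.on l (mem_legs.1 h5) _).2
  · obtain ⟨i, hi⟩ := Function.ne_iff.1 h3
    have h4 : ∀ k, n.E k ((legs σ).piecewise (fun l => y l (b l.1)) χ) = 0 := by
      intro k
      refine MultilinearMap.map_coord_zero _ (i, σ i) ?_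
      rw [Finset.piecewise_eq_of_mem _ _ _ (mem_legs.2 rfl)]
      exact (h.off (i, σ i) hi).2.2 _
    refine ⟨?_, fun r _ k => h4 _⟩
    rw [h4]
    fin_cases i
    · rw [if_neg (show ¬ σ 0 = s 0 from hi), zero_mul, zero_mul]
    · rw [if_neg (show ¬ σ 1 = s 1 from hi), mul_zero, zero_mul]
    · rw [if_neg (show ¬ σ 2 = s 2 from hi), mul_zero]

theorem Tests.zeta (h : Tests n s ξ χ y) (a b c d e f : Fin 2) :
    n.E (n.zeta 0 a b * n.zeta 1 c d * n.zeta 2 e f) χ =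
      n.c (0, s 0) * n.c (1, s 1) * n.c (2, s 2) * (ξ 0 a b * ξ 1 c d * ξ 2 e f) := by
  have h1 : ∀ u v w : Bool, n.E (n.zM (0, u) a b * n.zM (1, v) c d * n.zM (2, w) e f) χ =
      (if u = s 0 then ξ 0 a b else 0) * (if v = s 1 then ξ 1 c d else 0) *
        (if w = s 2 then ξ 2 e f else 0) := fun u v w =>
    (h.eval ![u, v, w] ![(a, b), (c, d), (e, f)]).1
  simp only [Net.zeta, Matrix.add_apply, Matrix.smul_apply, add_mul, mul_add, smul_mul_assoc,
    mul_smul_comm, map_add, map_smul, add_apply, smul_apply,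
    smul_eq_mul, h1]
  cases s 0 <;> cases s 1 <;> cases s 2 <;> simp <;> ring

end NetF

open NetF in
theorem Net.false_of (n : Net)
    (h : ∀ a b, (⁅⁅n.zeta 0, n.zeta 1⁆, n.zeta 2⁆ : M2 n.P) a b ∈
      n.AA * n.ZZ 0 * n.ZZ 1 * n.ZZ 2 ⊔ Ideal.span n.D) : False := by
  obtain ⟨s, ξ, χ, y, hT, h0⟩ := exists_tests n
  let K : Ideal n.P :=
    { carrier := {r | ∀ k, n.E (r * k) χ = 0}
      add_mem' := fun {x y} hx hy k => by
        rw [add_mul, map_add, add_apply, hx k, hy k, add_zero]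
      zero_mem' := fun k => by rw [zero_mul, map_zero, zero_apply]
      smul_mem' := fun c x hx k => by rw [smul_eq_mul, mul_comm c, mul_assoc, hx] }
  have h1 : Ideal.span n.D ≤ K := by
    refine Ideal.span_le.2 fun r hr k => ?_
    obtain ⟨G, hG⟩ := n.im r hr k
    exact lef_zero (tt n) n.eps n.eps_ne _ G hG (ker_all n _) χ hT.w0
  have h2 : n.AA * n.ZZ 0 * n.ZZ 1 * n.ZZ 2 ≤ K := by
    rw [mul_assoc, mul_assoc, Net.ZZ, Net.ZZ, Net.ZZ, Ideal.span_mul_span', Ideal.span_mul_span']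
    refine Ideal.mul_le.2 fun r hr x hx => ?_
    induction hx using Submodule.span_induction with
    | mem x hx =>
      obtain ⟨_, ⟨u, a, b, rfl⟩, _, ⟨_, ⟨v, c, d, rfl⟩, _, ⟨w, e, f, rfl⟩, rfl⟩, rfl⟩ := hx
      intro k
      rw [← (hT.eval ![u, v, w] ![(a, b), (c, d), (e, f)]).2 r hr k]
      congr 2
      change r * (n.zM (0, u) a b * (n.zM (1, v) c d * n.zM (2, w) e f)) * k =
        n.zM (0, u) a b * n.zM (1, v) c d * n.zM (2, w) e f * (r * k)
      ring
    | zero =>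
      rw [mul_zero]
      exact K.zero_mem
    | add x y _ _ hx hy =>
      rw [mul_add]
      exact K.add_mem hx hy
    | smul c x _ hx =>
      rw [smul_eq_mul, mul_left_comm]
      exact K.mul_mem_left c hx
  apply h0
  ext a b
  have h3 := sup_le h2 h1 (h a b) 1
  rw [mul_one, lie3_apply] at h3
  simp only [Fin.sum_univ_two, map_add, map_sub, add_apply,
    sub_apply, hT.zeta] at h3
  have h4 : n.c (0, s 0) * n.c (1, s 1) * n.c (2, s 2) ≠ 0 :=
    mul_ne_zero (mul_ne_zero (n.c_ne _) (n.c_ne _)) (n.c_ne _)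
  refine mul_left_cancel₀ h4 ?_
  rw [lie3_apply, Matrix.zero_apply, mul_zero, ← h3]
  simp only [Fin.sum_univ_two]
  ring

end Vale.Agent.P215Z
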