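import Vale.Agent.P215Z.Core.Defs2

/-! K4a: the action of the leg polynomials on tests -/

noncomputable section
namespace Vale.Agent.P215Z
open MvPolynomial Classical

namespace Rhox

/-- multiplication of a reduced word by a letter -/
theorem toWord_letter (i : Fin 3) (s : Bool) (a g : F3) (ha : a.toWord = [(i, s)]) :
    (a * g).toWord = if g ∈ Br (i, !s) then g.toWord.tail else (i, s) :: g.toWord := by
  rw [FreeGroup.toWord_mul, ha, List.singleton_append, FreeGroup.reduce.cons,
    FreeGroup.reduce_toWord]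
  have h : g ∈ Br (i, !s) ↔ g.toWord.head? = some (i, !s) := Iff.rfl
  simp only [h]
  cases g.toWord with
  | nil => simp
  | cons hd tl =>
    obtain ⟨j, t⟩ := hd
    simp only [List.head?_cons, Option.some.injEq, Prod.mk.injEq, List.tail_cons]
    refine if_congr ?_ rfl rfl
    cases s <;> cases t <;> simp [eq_comm]

theorem toWord_of_inv (i : Fin 3) : ((FreeGroup.of i)⁻¹ : F3).toWord = [(i, false)] := by
  rw [FreeGroup.toWord_inv, FreeGroup.toWord_of]
  rfl

end Rhox

open Rhox

theorem Br_disjoint {l l' : Lg} {g : F3} (h : g ∈ Br l) (h' : g ∈ Br l') : l = l' :=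
  Option.some_injective _ (h.symm.trans h')

theorem one_notMem_Br (l : Lg) : (1 : F3) ∉ Br l := fun h => by
  change (1 : F3).toWord.head? = _ at h
  rw [FreeGroup.toWord_one] at h
  cases h

theorem Br_compl (i : Fin 3) (g : F3) :
    g ∈ Br (i, true) ↔ (FreeGroup.of i)⁻¹ * g ∉ Br (i, false) := by
  have h := toWord_letter i false _ g (toWord_of_inv i)
  change _ ↔ ¬ ((FreeGroup.of i)⁻¹ * g).toWord.head? = some (i, false)
  rw [h, Bool.not_false]
  by_cases hg : g ∈ Br (i, true)
  · rw [if_pos hg]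
    refine iff_of_true hg fun h1 => ?_
    have h2 := FreeGroup.isReduced_toWord (x := g)
    change g.toWord.head? = some (i, true) at hg
    generalize g.toWord = w at hg h1 h2
    rcases w with _ | ⟨a, _ | ⟨b, w⟩⟩
    · cases hg
    · cases h1
    · obtain rfl : a = (i, true) := Option.some_injective _ hg
      obtain rfl : b = (i, false) := Option.some_injective _ h1
      exact absurd ((List.isChain_cons_cons.1 h2).1 rfl) (by simp)
  · rw [if_neg hg]
    exact iff_of_false hg fun h1 => h1 rfl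

theorem norm_of_notMem_Br_true (i : Fin 3) {g : F3} (h : g ∉ Br (i, true)) :
    ((FreeGroup.of i)⁻¹ * g).norm = g.norm + 1 := by
  rw [FreeGroup.norm, toWord_letter i false _ g (toWord_of_inv i), Bool.not_false, if_neg h]
  rfl

theorem norm_of_notMem_Br_false (i : Fin 3) {g : F3} (h : g ∉ Br (i, false)) :
    (FreeGroup.of i * g).norm = g.norm + 1 := by
  rw [FreeGroup.norm, toWord_letter i true _ g (FreeGroup.toWord_of i), Bool.not_true, if_neg h]
  rfl

namespace Letters
variable (L : Letters)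

theorem sgn_mul_self (l : Lg) (w : L.WV l.1) : L.sgn l w * L.sgn l w = 1 := by
  unfold sgn
  split_ifs <;> rfl

theorem sgn_none (l : Lg) (b : I2) : L.sgn l (none, b) = if l.2 then 1 else -1 := rfl

theorem one_le_wt (i : Fin 3) (c : L.C i) : 1 ≤ L.wt i (some c) := Nat.one_le_pow _ _ (by norm_num)

/-- the order on positions -/
def Le (l : Lg) (p q : L.Pos l) : Prop := ∀ w, L.sgn l w * p w ≤ L.sgn l w * q w

theorem le_shift (l : Lg) (p : L.Pos l) (m : L.WV l.1 →₀ ℕ) :
    L.Le l p fun w => p w + L.sgn l w * m w := fun w => by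
  rw [mul_add, ← mul_assoc, sgn_mul_self, one_mul]
  exact le_add_of_nonneg_right (Int.natCast_nonneg _)

variable {L}

theorem Le.chg {l : Lg} {p q : L.Pos l} (h : L.Le l p q) (m : Mk) : L.chg l m p ≤ L.chg l m q :=
  Finset.sum_le_sum fun w _ => by
    split_ifs
    exacts [h w, le_rfl]

theorem Le.wS {l : Lg} {p q : L.Pos l} (h : L.Le l p q) : L.wS l p ≤ L.wS l q :=
  Finset.sum_le_sum fun w _ => by
    have h1 := h w
    unfold sgn at h1
    split_ifs at h1 ⊢
    · exact mul_le_mul_of_nonneg_left (by linarith) (Int.natCast_nonneg _)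
    · exact le_rfl

theorem Le.wR {l : Lg} {p q : L.Pos l} (h : L.Le l p q) : L.wR l q ≤ L.wR l p :=
  Finset.sum_le_sum fun w _ => by
    have h1 := h w
    unfold sgn at h1
    split_ifs at h1 ⊢
    · exact le_rfl
    · exact mul_le_mul_of_nonneg_left (by linarith) (Int.natCast_nonneg _)

theorem Le.mem {l : Lg} {p q r : L.Pos l} (h : L.Le l p q) (h' : L.Le l q r) (hp : p ∈ L.Lam l)
    (hr : r ∈ L.Lam l) : q ∈ L.Lam l := by
  refine ⟨fun w => ?_, fun m => ⟨(hp.2.1 m).1.trans (h.chg m), (h'.chg m).trans (hr.2.1 m).2⟩,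
    ?_, ?_⟩
  · have h1 := h w
    have h2 := h' w
    have h3 := hp.1 w
    have h4 := hr.1 w
    unfold sgn at h1 h2
    split_ifs at h1 h2 <;> linarith
  · linarith [h'.wS, h'.wR, hr.2.2.1]
  · linarith [h.wS, h.wR, hp.2.2.2]

variable (L)

theorem wt_le_wS {l : Lg} {p : L.Pos l} (hp : ∀ w, 0 ≤ p w) {w : L.WV l.1}
    (h : L.cown l w.1 = true) : (L.wt l.1 w.1 : ℤ) * p w ≤ L.wS l p := by
  have h1 := Finset.single_le_sum
    (f := fun w : L.WV l.1 => if L.cown l w.1 then (L.wt l.1 w.1 : ℤ) * p w else 0)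
    (fun w _ => by
      split_ifs
      exacts [mul_nonneg (Int.natCast_nonneg _) (hp w), le_rfl]) (Finset.mem_univ w)
  rwa [if_pos h] at h1

theorem wt_le_wR {l : Lg} {p : L.Pos l} (hp : ∀ w, 0 ≤ p w) {w : L.WV l.1}
    (h : ¬ L.cown l w.1 = true) : (L.wt l.1 w.1 : ℤ) * p w ≤ L.wR l p := by
  have h1 := Finset.single_le_sum
    (f := fun w : L.WV l.1 => if L.cown l w.1 then 0 else (L.wt l.1 w.1 : ℤ) * p w)
    (fun w _ => by
      split_ifs
      exacts [le_rfl, mul_nonneg (Int.natCast_nonneg _) (hp w)]) (Finset.mem_univ w)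
  rwa [if_neg h] at h1

/-- the charge of the extra mark -/
theorem chg_inr (l : Lg) (p : L.Pos l) :
    L.chg l (Sum.inr l) p = (if l.2 then 1 else -1) * ∑ b, p (none, b) := by
  rw [chg, Fintype.sum_prod_type, Fintype.sum_option, Finset.mul_sum]
  simp only [cmark, sgn_none, if_true, reduceCtorEq, if_false, Finset.sum_const_zero, add_zero]

theorem none_le {l : Lg} {p : L.Pos l} (hp : p ∈ L.Lam l) (b : I2) :
    p (none, b) ≤ if l.2 then 1 else 0 := by
  have h1 : p (none, b) ≤ ∑ b, p (none, b) :=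
    Finset.single_le_sum (f := fun b => p (none, b)) (fun b _ => hp.1 _) (Finset.mem_univ b)
  have h2 := hp.2.1 (Sum.inr l)
  rw [chg_inr] at h2
  simp only [loB, upB, true_and] at h2
  split_ifs at h2 ⊢ <;> linarith [h2.1, h2.2]

theorem lam_le {l : Lg} {p : L.Pos l} (hp : p ∈ L.Lam l) (w : L.WV l.1) :
    p w ≤ 2 * L.Cc + 1 := by
  have h0 : (0 : ℤ) ≤ L.Cc := Int.natCast_nonneg _
  obtain ⟨_ | c, b⟩ := w
  · have h := L.none_le hp b
    split_ifs at h <;> linarith
  · have h1 : p (some c, b) ≤ (L.wt l.1 (some c) : ℤ) * p (some c, b) :=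
      le_mul_of_one_le_left (hp.1 _) (by exact_mod_cast L.one_le_wt l.1 c)
    have h2 := hp.2.2.1
    have h3 := hp.2.2.2
    by_cases h : L.cown l (some c) = true
    · linarith [L.wt_le_wS (w := (some c, b)) hp.1 h]
    · linarith [L.wt_le_wR (w := (some c, b)) hp.1 h]

theorem lam_finite (l : Lg) : (L.Lam l).Finite :=
  (Set.Finite.pi' fun _ : L.WV l.1 => Set.finite_Icc (0 : ℤ) (2 * L.Cc + 1)).subset
    fun _ hp w => ⟨hp.1 w, L.lam_le hp w⟩

theorem zero_mem_lam (l : Lg) : (0 : L.Pos l) ∈ L.Lam l := by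
  refine ⟨fun _ => le_rfl, fun m => ?_, by simp [wS, wR], by simp [wS, wR]⟩
  have h : L.chg l m 0 = 0 := by simp [chg]
  rw [h]
  cases m <;> simp only [loB, upB] <;> split_ifs <;> simp

theorem lam_convex (l : Lg) (p : L.Pos l) (m m' : L.WV l.1 →₀ ℕ) (hp : p ∈ L.Lam l)
    (h : (fun w => p w + L.sgn l w * m w + L.sgn l w * m' w) ∈ L.Lam l) :
    (fun w => p w + L.sgn l w * m w) ∈ L.Lam l :=
  (L.le_shift l p m).mem (L.le_shift l _ m') hp h

theorem val_of_mem {l : Lg} {p : L.Pos l} (h : p ∈ L.Lam l) (χ : L.Tst l) :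
    L.val l p χ = χ ⟨p, h⟩ := by
  rw [val, dif_pos h]
  rfl

theorem val_of_notMem {l : Lg} {p : L.Pos l} (h : p ∉ L.Lam l) (χ : L.Tst l) :
    L.val l p χ = 0 := by
  rw [val, dif_neg h]
  rfl

theorem shiftOp_apply (l : Lg) (m : L.WV l.1 →₀ ℕ) (χ : L.Tst l) (p : L.Lam l) :
    L.shiftOp l m χ p = L.val l (fun w => p.1 w + L.sgn l w * m w) χ := rfl

theorem rhoL_monomial (l : Lg) (m : L.WV l.1 →₀ ℕ) (c : ℚ) :
    L.rhoL l (monomial m c) = c • L.shiftOp l m := by
  have h : L.rhoL l (monomial m 1) = L.shiftOp l m :=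
    (basisMonomials (L.WV l.1) ℚ).constr_basis ℚ (L.shiftOp l) m
  rw [← h, ← map_smul, smul_monomial, smul_eq_mul, mul_one]

theorem shiftOp_add (l : Lg) (m m' : L.WV l.1 →₀ ℕ) :
    L.shiftOp l (m + m') = L.shiftOp l m * L.shiftOp l m' := by
  refine LinearMap.ext fun χ => funext fun p => ?_
  have h1 : (fun w => p.1 w + L.sgn l w * (m + m') w) =
      fun w => p.1 w + L.sgn l w * m w + L.sgn l w * m' w := funext fun w => by
    rw [Finsupp.add_apply, Nat.cast_add, mul_add, add_assoc]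
  rw [Module.End.mul_apply, shiftOp_apply, shiftOp_apply, h1]
  by_cases h : (fun w => p.1 w + L.sgn l w * m w) ∈ L.Lam l
  · rw [L.val_of_mem h, shiftOp_apply]
  · rw [L.val_of_notMem h, L.val_of_notMem fun h2 => h (L.lam_convex l p.1 m m' p.2 h2)]

theorem rhoL_one (l : Lg) : L.rhoL l 1 = 1 := by
  rw [← C_1, C_apply, rhoL_monomial, one_smul]
  refine LinearMap.ext fun χ => funext fun p => ?_
  have h1 : (fun w => p.1 w + L.sgn l w * (0 : L.WV l.1 →₀ ℕ) w) = p.1 := funext fun w => by simp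
  rw [shiftOp_apply, h1, L.val_of_mem p.2]
  rfl

theorem rhoL_mul (l : Lg) (f g : MvPolynomial (L.WV l.1) ℚ) :
    L.rhoL l (f * g) = L.rhoL l f * L.rhoL l g := by
  induction f using MvPolynomial.induction_on' with
  | add f f' h h' => rw [add_mul, map_add, map_add, h, h', add_mul]
  | monomial m c =>
    induction g using MvPolynomial.induction_on' with
    | add g g' h h' => rw [mul_add, map_add, map_add, h, h', mul_add]
    | monomial m' c' =>
      rw [monomial_mul, rhoL_monomial, rhoL_monomial, rhoL_monomial, shiftOp_add,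
        smul_mul_smul_comm]

instance finLam (l : Lg) : Fintype (L.Lam l) := (L.lam_finite l).fintype

def rho (l : Lg) : MvPolynomial (L.WV l.1) ℚ →ₐ[ℚ] Module.End ℚ (L.Tst l) :=
  AlgHom.ofLinearMap (L.rhoL l) (L.rhoL_one l) (L.rhoL_mul l)

theorem rho_monomial (l : Lg) (m : L.WV l.1 →₀ ℕ) (c : ℚ) (χ : L.Tst l) (p : L.Lam l) :
    L.rho l (monomial m c) χ p = c * L.val l (fun w => p.1 w + L.sgn l w * m w) χ := by
  change L.rhoL l (monomial m c) χ p = _
  rw [rhoL_monomial]
  rfl

theorem rho_X_nilpotent (l : Lg) (w : L.WV l.1) : IsNilpotent (L.rho l (X w)) := by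
  refine ⟨2 * L.Cc + 2, ?_⟩
  rw [← map_pow, X_pow_eq_monomial]
  refine LinearMap.ext fun χ => funext fun p => ?_
  rw [rho_monomial, L.val_of_notMem, mul_zero]
  · rfl
  · intro h
    have h1 := h.1 w
    have h2 := L.lam_le h w
    have h3 := p.2.1 w
    have h4 := L.lam_le p.2 w
    simp only [Finsupp.single_eq_same, sgn] at h1 h2
    push_cast at h1 h2
    split_ifs at h1 h2 <;> linarith

theorem mem_aL {l : Lg} {f : MvPolynomial (L.WV l.1) ℚ} (hf : constantCoeff f = 0) :
    f ∈ L.aL l := by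
  have h : {f : MvPolynomial (L.WV l.1) ℚ | ∃ w, f = X w} = X '' Set.univ := by
    ext f
    simp [eq_comm]
  rw [aL, h, mem_ideal_span_X_image]
  intro m hm
  by_contra h1
  have h2 : m = 0 := Finsupp.ext fun w => by
    by_contra h3
    exact h1 ⟨w, trivial, h3⟩
  rw [h2, mem_support_iff] at hm
  exact hm hf

theorem rho_nilpotent (l : Lg) (f : MvPolynomial (L.WV l.1) ℚ) (hf : constantCoeff f = 0) :
    IsNilpotent (L.rho l f) := by
  have h : L.aL l ≤ (RingHom.ker (L.rho l)).radical := Ideal.span_le.2 (by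
    rintro _ ⟨w, rfl⟩
    obtain ⟨n, hn⟩ := L.rho_X_nilpotent l w
    exact ⟨n, by rw [RingHom.mem_ker, map_pow, hn]⟩)
  obtain ⟨n, hn⟩ := h (L.mem_aL hf)
  exact ⟨n, by rw [← map_pow]; exact hn⟩

theorem NL_stab (l : Lg) (f : MvPolynomial (L.WV l.1) ℚ) : ∀ χ ∈ L.NL l, L.rho l f χ ∈ L.NL l := by
  intro χ hχ
  induction f using MvPolynomial.induction_on' with
  | add f f' h h' =>
    rw [map_add, LinearMap.add_apply]
    exact add_mem h h'
  | monomial m c =>
    intro p hp
    rw [rho_monomial]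
    by_cases h : (fun w => p.1 w + L.sgn l w * m w) ∈ L.Lam l
    · rw [L.val_of_mem h, hχ, mul_zero]
      have h1 := L.le_shift l p.1 m
      rcases hp with hp | ⟨b, hb⟩
      · exact Or.inl (h1.wR.trans_lt (hp.trans_le h1.wS))
      · refine Or.inr ⟨b, fun h2 => hb ?_⟩
        have h3 := h1 (none, b)
        have h4 := p.2.1 (none, b)
        have h5 := L.none_le p.2 b
        change p.1 (none, b) + _ = 0 at h2
        simp only [h2, mul_zero] at h3
        rw [sgn_none] at h3
        by_cases hl : l.2 = true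
        · rw [if_pos hl] at h3
          linarith
        · rw [if_neg hl] at h5
          linarith
    · rw [L.val_of_notMem h, mul_zero]

theorem dL_X (l : Lg) (w : L.WV l.1) {χ : L.Tst l} (hχ : χ ∈ L.NL l) :
    L.dL l (L.rho l (X w) χ) = 0 := by
  rw [dL, L.val_of_mem (L.zero_mem_lam l), X, rho_monomial, one_mul]
  by_cases h : (fun w' => (0 : L.Pos l) w' + L.sgn l w' * (Finsupp.single w 1 : _ →₀ ℕ) w') ∈
      L.Lam l
  · rw [L.val_of_mem h]
    have h1 := h.1 w
    have ho : L.cown l w.1 = true := by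
      by_contra h2
      simp [sgn, h2] at h1
    refine hχ _ ?_
    obtain ⟨_ | c, b⟩ := w
    · exact Or.inr ⟨b, by simp [sgn, ho]⟩
    · refine Or.inl ?_
      have h2 := (L.le_shift l 0 (Finsupp.single (some c, b) 1)).wR
      have h3 : L.wR l 0 = 0 := by simp [wR]
      have h4 := L.wt_le_wS h.1 ho
      have h5 : (1 : ℤ) ≤ L.wt l.1 (some c) := by exact_mod_cast L.one_le_wt l.1 c
      simp only [sgn, ho, if_true, Finsupp.single_eq_same, Pi.zero_apply, Nat.cast_one, mul_one,
        zero_add] at h4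
      simp only [sgn, Pi.zero_apply, zero_add] at h2 ⊢
      linarith
  · exact L.val_of_notMem h χ

theorem dL_aL (l : Lg) : ∀ f ∈ L.aL l, ∀ χ ∈ L.NL l, L.dL l (L.rho l f χ) = 0 := by
  intro f hf
  induction hf using Submodule.span_induction with
  | mem f hf =>
    obtain ⟨w, rfl⟩ := hf
    exact fun χ hχ => L.dL_X l w hχ
  | zero => exact fun χ _ => by rw [map_zero, LinearMap.zero_apply, map_zero]
  | add f g _ _ h h' =>
    exact fun χ hχ => by rw [map_add, LinearMap.add_apply, map_add, h χ hχ, h' χ hχ, add_zero]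
  | smul a f _ h =>
    intro χ hχ
    rw [smul_eq_mul, mul_comm, map_mul, Module.End.mul_apply]
    exact h _ (L.NL_stab l a χ hχ)

theorem span_inc : Submodule.span ℚ
    {h : L.P | ∃ f : ∀ l : Lg, MvPolynomial (L.WV l.1) ℚ, h = ∏ l, L.inc l (f l)} = ⊤ := by
  refine Submodule.eq_top_iff'.2 fun h => ?_
  induction h using MvPolynomial.induction_on with
  | C a =>
    rw [← mul_one (MvPolynomial.C a), ← smul_eq_C_mul]
    exact Submodule.smul_mem _ _ (Submodule.subset_span ⟨1, by simp⟩)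
  | add p q h h' => exact add_mem h h'
  | mul_X p v h1 =>
    induction h1 using Submodule.span_induction with
    | mem x hx =>
      obtain ⟨f, rfl⟩ := hx
      refine Submodule.subset_span ⟨f * Pi.mulSingle v.1 (X v.2), ?_⟩
      simp only [Pi.mul_apply, map_mul, Finset.prod_mul_distrib]
      congr 1
      rw [Finset.prod_eq_single v.1 (fun l _ hl => by rw [Pi.mulSingle_eq_of_ne hl, map_one])
        (fun h => absurd (Finset.mem_univ _) h), Pi.mulSingle_eq_same, inc, rename_X]
    | zero => rw [zero_mul]; exact zero_mem _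
    | add x y _ _ h h' => rw [add_mul]; exact add_mem h h'
    | smul a x _ h => rw [smul_mul_assoc]; exact Submodule.smul_mem _ _ h

/-- the multilinear functional of an operator -/
def EE (T : L.P →ₗ[ℚ] L.P) : MultilinearMap ℚ L.Tst ℚ :=
  ∑ p : (∀ l, L.Lam l), L.ET T (fun l => (p l).1) •
    (MultilinearMap.mkPiAlgebra ℚ Lg ℚ).compLinearMap fun l => LinearMap.proj (p l)

def Ep (n : L.Var → L.P) (h : L.P) : MultilinearMap ℚ L.Tst ℚ :=
  L.EE (LinearMap.mulLeft ℚ h ∘ₗ (L.sub n).toLinearMap)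

theorem EE_apply (T : L.P →ₗ[ℚ] L.P) (χ : ∀ l, L.Tst l) :
    L.EE T χ = ∑ p : (∀ l, L.Lam l), L.ET T (fun l => (p l).1) * ∏ l, χ l (p l) := by
  rw [EE, sum_apply]
  rfl

theorem Ep_add (n : L.Var → L.P) (h h' : L.P) : L.Ep n (h + h') = L.Ep n h + L.Ep n h' := by
  refine MultilinearMap.ext fun χ => ?_
  rw [add_apply, Ep, Ep, Ep, EE_apply, EE_apply, EE_apply,
    ← Finset.sum_add_distrib]
  refine Finset.sum_congr rfl fun p _ => ?_
  rw [← add_mul]
  congr 1
  simp only [ET, LinearMap.comp_apply, LinearMap.mulLeft_apply, add_mul, coeff_add]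

theorem Ep_smul (n : L.Var → L.P) (c : ℚ) (h : L.P) : L.Ep n (c • h) = c • L.Ep n h := by
  refine MultilinearMap.ext fun χ => ?_
  rw [smul_apply, Ep, Ep, EE_apply, EE_apply, smul_eq_mul, Finset.mul_sum]
  refine Finset.sum_congr rfl fun p _ => ?_
  rw [← mul_assoc]
  congr 1
  simp only [ET, LinearMap.comp_apply, LinearMap.mulLeft_apply, smul_mul_assoc, coeff_smul,
    smul_eq_mul]

end Letters
end Vale.Agent.P215Z
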